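import Mathlib

open scoped ContDiff

namespace Vale.Agent.Lib.P209

/-- The standard symplectic form on `ℂⁿ`:
`ω₀(u, v) = ∑ⱼ (xⱼ(u) yⱼ(v) - yⱼ(u) xⱼ(v))` with `xⱼ` the real and `yⱼ` the imaginary part of the
`j`-th coordinate, that is `ω₀ = ∑ⱼ dxⱼ ∧ dyⱼ`. -/
def stdForm {n : ℕ} (u v : Fin n → ℂ) : ℝ :=
  ∑ j, ((u j).re * (v j).im - (u j).im * (v j).re)

/-- The closed ball of capacity `R` in `ℂⁿ`: `{z | π ∑ⱼ |zⱼ|² ≤ R}`. -/
def capBall (n : ℕ) (R : ℝ) : Set (Fin n → ℂ) :=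
  {z | Real.pi * ∑ j, ‖z j‖ ^ 2 ≤ R}

/-- `φ` is a symplectic embedding of the closed ball of capacity `r`: on some open neighbourhood `U`
of the ball it is smooth, a homeomorphism onto an open image, and it pulls `ω₀` back to `ω₀`. -/
def IsSymplecticBallEmbedding (n : ℕ) (r : ℝ) (φ : (Fin n → ℂ) → (Fin n → ℂ)) : Prop :=
  ∃ U : Set (Fin n → ℂ), IsOpen U ∧ capBall n r ⊆ U ∧ ContDiffOn ℝ ∞ φ U ∧
    Topology.IsOpenEmbedding (U.domRestrict φ) ∧
    ∀ z ∈ U, ∀ u v, stdForm (fderiv ℝ φ z u) (fderiv ℝ φ z v) = stdForm u v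

/-- There is a symplectic embedding of the disjoint union of the closed balls of capacities
`r 0, …, r (k - 1)` into the interior of the ball of capacity `R` in `ℂⁿ`. -/
def BallsPack (n k : ℕ) (R : ℝ) (r : Fin k → ℝ) : Prop :=
  ∃ φ : Fin k → (Fin n → ℂ) → (Fin n → ℂ),
    (∀ i, IsSymplecticBallEmbedding n (r i) (φ i)) ∧
    (∀ i, φ i '' capBall n (r i) ⊆ interior (capBall n R)) ∧
    ∀ i j, i ≠ j → Disjoint (φ i '' capBall n (r i)) (φ j '' capBall n (r j))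

end Vale.Agent.Lib.P209
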