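import Mathlib
import Vale.Agent.Lib.P209.Defs

open scoped ContDiff

noncomputable section

namespace Vale.Agent.Lib.P209

/-- area form on the plane -/
def ar (u v : ℂ) : ℝ := u.re * v.im - u.im * v.re

def Good1 (f : ℂ → ℂ) (z : ℂ) : Prop :=
  ContDiffAt ℝ ∞ f z ∧ ∀ u v, ar (fderiv ℝ f z u) (fderiv ℝ f z v) = ar u v

def GoodN {n : ℕ} (f : (Fin n → ℂ) → (Fin n → ℂ)) (z : Fin n → ℂ) : Prop :=
  ContDiffAt ℝ ∞ f z ∧ ∀ u v, stdForm (fderiv ℝ f z u) (fderiv ℝ f z v) = stdForm u v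

lemma GoodN.comp {n : ℕ} {g f : (Fin n → ℂ) → (Fin n → ℂ)} {z : Fin n → ℂ}
    (hg : GoodN g (f z)) (hf : GoodN f z) : GoodN (fun x => g (f x)) z := by
  refine ⟨hg.1.comp z hf.1, fun u v => ?_⟩
  have h1 : DifferentiableAt ℝ g (f z) := hg.1.differentiableAt (by simp)
  have h2 : DifferentiableAt ℝ f z := hf.1.differentiableAt (by simp)
  have : fderiv ℝ (fun x => g (f x)) z = (fderiv ℝ g (f z)).comp (fderiv ℝ f z) :=
    fderiv_comp z h1 h2
  rw [this]
  simp only [ContinuousLinearMap.comp_apply]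
  rw [hg.2, hf.2]

lemma Good1.comp {g f : ℂ → ℂ} {z : ℂ}
    (hg : Good1 g (f z)) (hf : Good1 f z) : Good1 (fun x => g (f x)) z := by
  refine ⟨hg.1.comp z hf.1, fun u v => ?_⟩
  have h1 : DifferentiableAt ℝ g (f z) := hg.1.differentiableAt (by simp)
  have h2 : DifferentiableAt ℝ f z := hf.1.differentiableAt (by simp)
  have : fderiv ℝ (fun x => g (f x)) z = (fderiv ℝ g (f z)).comp (fderiv ℝ f z) :=
    fderiv_comp z h1 h2
  rw [this]
  simp only [ContinuousLinearMap.comp_apply]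
  rw [hg.2, hf.2]

lemma GoodN.pi {n : ℕ} {f : ℂ → ℂ} {z : Fin n → ℂ} (h : ∀ j, Good1 f (z j)) :
    GoodN (fun x : Fin n → ℂ => fun j => f (x j)) z := by
  have hc : ∀ j, ContDiffAt ℝ ∞ (fun x : Fin n → ℂ => f (x j)) z := fun j =>
    (h j).1.comp z (contDiff_apply ℝ ℂ j).contDiffAt
  refine ⟨contDiffAt_pi.2 hc, fun u v => ?_⟩
  have hd : ∀ j, HasFDerivAt (fun x : Fin n → ℂ => f (x j))
      ((fderiv ℝ f (z j)).comp (ContinuousLinearMap.proj j)) z := by
    intro j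
    have h1 : DifferentiableAt ℝ f (z j) := (h j).1.differentiableAt (by simp)
    exact (h1.hasFDerivAt).comp z (ContinuousLinearMap.hasFDerivAt (ContinuousLinearMap.proj (R := ℝ) (φ := fun _ : Fin n => ℂ) j))
  have hp : HasFDerivAt (fun x : Fin n → ℂ => fun j => f (x j))
      (ContinuousLinearMap.pi fun j => (fderiv ℝ f (z j)).comp (ContinuousLinearMap.proj j)) z :=
    hasFDerivAt_pi.2 hd
  rw [hp.fderiv]
  unfold stdForm
  apply Finset.sum_congr rfl
  intro j _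
  have := (h j).2 (u j) (v j)
  simpa [ar] using this

lemma good1_mk {P Q : ℂ → ℝ} {P' Q' : ℂ →L[ℝ] ℝ} {z : ℂ}
    (hP : ContDiffAt ℝ ∞ P z) (hQ : ContDiffAt ℝ ∞ Q z)
    (hP' : HasFDerivAt P P' z) (hQ' : HasFDerivAt Q Q' z)
    (h : ∀ u v, P' u * Q' v - Q' u * P' v = ar u v) :
    Good1 (fun z => (⟨P z, Q z⟩ : ℂ)) z := by
  have e : (fun z => (⟨P z, Q z⟩ : ℂ)) = fun z => Complex.equivRealProdCLM.symm (P z, Q z) := by
    funext z
    simp [Complex.ext_iff]
  rw [e]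
  refine ⟨(Complex.equivRealProdCLM.symm.contDiff.contDiffAt).comp z (hP.prodMk hQ), fun u v => ?_⟩
  have hd : HasFDerivAt (fun z => Complex.equivRealProdCLM.symm (P z, Q z))
      ((Complex.equivRealProdCLM.symm : (ℝ × ℝ) →L[ℝ] ℂ).comp (P'.prod Q')) z :=
    (Complex.equivRealProdCLM.symm.hasFDerivAt).comp z (hP'.prodMk hQ')
  rw [hd.fderiv, ← h u v]
  simp [ar]

/-! ### The slit shear -/

def Dd (δ M q : ℝ) : ℝ := 1 + δ * M / (1 + (M * q) ^ 2)

def Qf (δ M q : ℝ) : ℝ := q + δ * Real.arctan (M * q)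

def tau (δ M : ℝ) (z : ℂ) : ℂ := ⟨z.re * (Dd δ M z.im)⁻¹ + δ, Qf δ M z.im⟩

lemma Dd_ge {δ M : ℝ} (hδ : 0 < δ) (hM : 0 < M) (q : ℝ) : 1 ≤ Dd δ M q := by
  unfold Dd
  have : 0 ≤ δ * M / (1 + (M * q) ^ 2) := by positivity
  linarith

lemma hasDerivAt_Qf (δ M q : ℝ) : HasDerivAt (Qf δ M) (Dd δ M q) q := by
  unfold Qf Dd
  have h1 : HasDerivAt (fun q : ℝ => M * q) M q := by
    simpa using (hasDerivAt_id q).const_mul M
  have h2 := (h1.arctan).const_mul δ
  have h3 := (hasDerivAt_id q).add h2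
  have e : 1 + δ * M / (1 + (M * q) ^ 2) = 1 + δ * (1 / (1 + (M * q) ^ 2) * M) := by ring
  rw [e]
  exact h3

lemma contDiff_Dd {δ M : ℝ} : ContDiff ℝ ∞ (Dd δ M) := by
  unfold Dd
  refine contDiff_const.add (ContDiff.div contDiff_const ?_ ?_)
  · exact contDiff_const.add ((contDiff_const.mul contDiff_id).pow 2)
  · intro q; positivity

lemma contDiff_Qf {δ M : ℝ} : ContDiff ℝ ∞ (Qf δ M) := by
  unfold Qf
  exact contDiff_id.add (contDiff_const.mul (Real.contDiff_arctan.comp (contDiff_const.mul contDiff_id)))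

lemma contDiff_re : ContDiff ℝ ∞ Complex.re := Complex.reCLM.contDiff
lemma contDiff_im : ContDiff ℝ ∞ Complex.im := Complex.imCLM.contDiff

lemma good1_tau {δ M : ℝ} (hδ : 0 < δ) (hM : 0 < M) (z : ℂ) : Good1 (tau δ M) z := by
  have hne : ∀ q, Dd δ M q ≠ 0 := fun q => by have := Dd_ge hδ hM q; positivity
  have hinv : ContDiff ℝ ∞ (fun q => (Dd δ M q)⁻¹) := contDiff_Dd.inv hne
  obtain ⟨g', hg'⟩ : ∃ g', HasDerivAt (fun q => (Dd δ M q)⁻¹) g' z.im :=
    ⟨_, (hinv.differentiable (by simp) z.im).hasDerivAt⟩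
  have hre : HasFDerivAt Complex.re Complex.reCLM z := Complex.reCLM.hasFDerivAt
  have him : HasFDerivAt Complex.im Complex.imCLM z := Complex.imCLM.hasFDerivAt
  have h1 : HasFDerivAt (fun z : ℂ => (Dd δ M z.im)⁻¹) (g' • Complex.imCLM) z :=
    hg'.comp_hasFDerivAt z him
  have h2 := (hre.mul h1).add_const δ
  have h3 : HasFDerivAt (fun z : ℂ => Qf δ M z.im) ((Dd δ M z.im) • Complex.imCLM) z :=
    (hasDerivAt_Qf δ M z.im).comp_hasFDerivAt z him
  refine good1_mk (P := fun z => z.re * (Dd δ M z.im)⁻¹ + δ) (Q := fun z => Qf δ M z.im) ?_ ?_ h2 h3 ?_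
  · exact ((contDiff_re.mul (hinv.comp contDiff_im)).add contDiff_const).contDiffAt
  · exact (contDiff_Qf.comp contDiff_im).contDiffAt
  · intro u v
    have := hne z.im
    simp [ar]
    field_simp
    ring

lemma abs_arctan_le (x : ℝ) : |Real.arctan x| ≤ 2 := by
  rw [abs_le]
  have h1 := Real.neg_pi_div_two_lt_arctan x
  have h2 := Real.arctan_lt_pi_div_two x
  have h3 := Real.pi_lt_four
  constructor <;> linarith

lemma tau_bound {δ M : ℝ} (hδ : 0 < δ) (hM : 0 < M) (hδ1 : δ ≤ 1) {ρ : ℝ} {z : ℂ}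
    (h1 : |z.re| ≤ ρ) (h2 : |z.im| ≤ ρ) :
    ‖tau δ M z‖ ^ 2 ≤ ‖z‖ ^ 2 + δ * (6 * ρ + 5) := by
  rw [← Complex.normSq_eq_norm_sq, ← Complex.normSq_eq_norm_sq, Complex.normSq_apply,
    Complex.normSq_apply]
  have hD := Dd_ge hδ hM z.im
  have hDpos : 0 < Dd δ M z.im := by linarith
  have hinv : (Dd δ M z.im)⁻¹ ≤ 1 := inv_le_one_of_one_le₀ hD
  have hinv0 : 0 < (Dd δ M z.im)⁻¹ := by positivity
  have hP : |(tau δ M z).re| ≤ |z.re| + δ := by
    unfold tau
    simp only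
    calc |z.re * (Dd δ M z.im)⁻¹ + δ| ≤ |z.re * (Dd δ M z.im)⁻¹| + |δ| := abs_add_le _ _
      _ = |z.re| * (Dd δ M z.im)⁻¹ + δ := by rw [abs_mul, abs_of_pos hinv0, abs_of_pos hδ]
      _ ≤ |z.re| * 1 + δ := by gcongr
      _ = _ := by ring
  have hQ : |(tau δ M z).im| ≤ |z.im| + 2 * δ := by
    unfold tau Qf
    simp only
    calc |z.im + δ * Real.arctan (M * z.im)| ≤ |z.im| + |δ * Real.arctan (M * z.im)| := abs_add_le _ _
      _ = |z.im| + δ * |Real.arctan (M * z.im)| := by rw [abs_mul, abs_of_pos hδ]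
      _ ≤ |z.im| + δ * 2 := by gcongr; exact abs_arctan_le _
      _ = _ := by ring
  have e1 : (tau δ M z).re * (tau δ M z).re = |(tau δ M z).re| ^ 2 := by rw [sq_abs]; ring
  have e2 : (tau δ M z).im * (tau δ M z).im = |(tau δ M z).im| ^ 2 := by rw [sq_abs]; ring
  have e3 : z.re * z.re = |z.re| ^ 2 := by rw [sq_abs]; ring
  have e4 : z.im * z.im = |z.im| ^ 2 := by rw [sq_abs]; ring
  rw [e1, e2, e3, e4]
  have a1 : |(tau δ M z).re| ^ 2 ≤ (|z.re| + δ) ^ 2 := by gcongr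
  have a2 : |(tau δ M z).im| ^ 2 ≤ (|z.im| + 2 * δ) ^ 2 := by gcongr
  have hρ : 0 ≤ ρ := le_trans (abs_nonneg _) h1
  nlinarith [abs_nonneg z.re, abs_nonneg z.im, mul_nonneg hδ.le (sub_nonneg.2 h1), mul_nonneg hδ.le (sub_nonneg.2 h2), mul_nonneg hδ.le (sub_nonneg.2 hδ1)]

lemma Qf_strictMono {δ M : ℝ} (hδ : 0 < δ) (hM : 0 < M) : StrictMono (Qf δ M) := by
  intro a b hab
  unfold Qf
  have : Real.arctan (M * a) < Real.arctan (M * b) := by
    apply Real.arctan_strictMono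
    gcongr
  have := mul_lt_mul_of_pos_left this hδ
  linarith

lemma tau_injective {δ M : ℝ} (hδ : 0 < δ) (hM : 0 < M) : Function.Injective (tau δ M) := by
  intro z w h
  unfold tau at h
  rw [Complex.mk.injEq] at h
  obtain ⟨h1, h2⟩ := h
  have him : z.im = w.im := (Qf_strictMono hδ hM).injective h2
  rw [him] at h1
  have hD := Dd_ge hδ hM w.im
  have hne : (Dd δ M w.im)⁻¹ ≠ 0 := by positivity
  have h3 : z.re * (Dd δ M w.im)⁻¹ = w.re * (Dd δ M w.im)⁻¹ := by linarith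
  exact Complex.ext (mul_right_cancel₀ hne h3) him

lemma tau_mem_slitPlane {δ M ρ : ℝ} (hδ : 0 < δ) (hM : 0 < M) (hM' : ρ < δ * (1 + δ * M)) {z : ℂ}
    (h1 : |z.re| ≤ ρ) : tau δ M z ∈ Complex.slitPlane := by
  rw [Complex.mem_slitPlane_iff]
  by_cases h : z.im = 0
  · left
    unfold tau Dd
    simp only [h, mul_zero]
    have hpos : 0 < 1 + δ * M := by positivity
    have e : (1 + δ * M / (1 + (0:ℝ) ^ 2)) = 1 + δ * M := by ring
    rw [e]
    have : -ρ ≤ z.re := by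
      have := neg_abs_le z.re
      linarith
    have h3 : -ρ * (1 + δ * M)⁻¹ ≤ z.re * (1 + δ * M)⁻¹ := by gcongr
    have h4 : ρ * (1 + δ * M)⁻¹ < δ := by
      rw [← div_eq_mul_inv, div_lt_iff₀ hpos]
      exact hM'
    linarith
  · right
    have h0 : Qf δ M 0 = 0 := by simp [Qf]
    intro h'
    apply h
    apply (Qf_strictMono hδ hM).injective
    rw [h0]
    exact h'

/-! ### Polar coordinates -/

def lam (z : ℂ) : ℂ := ⟨Real.pi * (z.re ^ 2 + z.im ^ 2), (2 * Real.pi)⁻¹ * (Complex.log z).im⟩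

lemma lam_re (z : ℂ) : (lam z).re = Real.pi * ‖z‖ ^ 2 := by
  rw [← Complex.normSq_eq_norm_sq, Complex.normSq_apply]
  simp [lam]
  ring

lemma lam_im (z : ℂ) : (lam z).im = (2 * Real.pi)⁻¹ * Complex.arg z := by
  simp [lam, Complex.log_im]

lemma lam_injOn : Set.InjOn lam Complex.slitPlane := by
  intro z hz w hw h
  have h1 : ‖z‖ = ‖w‖ := by
    have := congrArg Complex.re h
    rw [lam_re, lam_re] at this
    have := mul_left_cancel₀ Real.pi_ne_zero this
    exact (pow_left_inj₀ (norm_nonneg _) (norm_nonneg _) two_ne_zero).1 this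
  have h2 : z.arg = w.arg := by
    have := congrArg Complex.im h
    rw [lam_im, lam_im] at this
    exact mul_left_cancel₀ (by positivity) this
  exact Complex.ext_norm_arg h1 h2

lemma good1_lam {z : ℂ} (hz : z ∈ Complex.slitPlane) : Good1 lam z := by
  have hz0 : z ≠ 0 := Complex.slitPlane_ne_zero hz
  have hre : HasFDerivAt Complex.re Complex.reCLM z := Complex.reCLM.hasFDerivAt
  have him : HasFDerivAt Complex.im Complex.imCLM z := Complex.imCLM.hasFDerivAt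
  have hlog : HasFDerivAt Complex.log (z⁻¹ • (1 : ℂ →L[ℝ] ℂ)) z :=
    (Complex.hasStrictFDerivAt_log_real hz).hasFDerivAt
  have h1 : HasFDerivAt (fun z : ℂ => Real.pi * (z.re ^ 2 + z.im ^ 2)) _ z :=
    ((hre.pow 2).add (him.pow 2)).const_mul Real.pi
  have h2 : HasFDerivAt (fun z : ℂ => (2 * Real.pi)⁻¹ * (Complex.log z).im) _ z :=
    ((Complex.imCLM.hasFDerivAt).comp z hlog).const_mul (2 * Real.pi)⁻¹
  refine good1_mk ?_ ?_ h1 h2 ?_
  · exact (contDiff_const.mul ((contDiff_re.pow 2).add (contDiff_im.pow 2))).contDiffAt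
  · refine contDiffAt_const.mul ?_
    exact contDiff_im.contDiffAt.comp z ((Complex.contDiffAt_log hz).restrict_scalars ℝ)
  · intro u v
    have hn : z.re * z.re + z.im * z.im ≠ 0 := by
      have := (Complex.normSq_pos.2 hz0).ne'
      rwa [Complex.normSq_apply] at this
    have hn2 : z.re ^ 2 + z.im ^ 2 ≠ 0 := by
      intro h
      apply hn
      linarith [sq z.re, sq z.im]
    have hpi := Real.pi_ne_zero
    simp [ar, Complex.normSq_apply]
    have e : z.re * z.re + z.im * z.im = z.re ^ 2 + z.im ^ 2 := by ring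
    rw [e]
    field_simp
    ring

def kap (w : ℂ) : ℂ :=
  ⟨Real.sqrt (w.re / Real.pi) * Real.cos (2 * Real.pi * w.im),
    Real.sqrt (w.re / Real.pi) * Real.sin (2 * Real.pi * w.im)⟩

lemma kap_norm_sq {w : ℂ} (hw : 0 ≤ w.re) : Real.pi * ‖kap w‖ ^ 2 = w.re := by
  rw [← Complex.normSq_eq_norm_sq, Complex.normSq_apply]
  simp only [kap]
  have h : 0 ≤ w.re / Real.pi := by positivity
  have h1 := Real.mul_self_sqrt h
  have h2 := Real.sin_sq_add_cos_sq (2 * Real.pi * w.im)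
  have : Real.pi * (Real.sqrt (w.re / Real.pi) * Real.cos (2 * Real.pi * w.im) * (Real.sqrt (w.re / Real.pi) * Real.cos (2 * Real.pi * w.im)) +
      Real.sqrt (w.re / Real.pi) * Real.sin (2 * Real.pi * w.im) * (Real.sqrt (w.re / Real.pi) * Real.sin (2 * Real.pi * w.im)))
      = Real.pi * ((Real.sqrt (w.re / Real.pi) * Real.sqrt (w.re / Real.pi)) * (Real.sin (2 * Real.pi * w.im) ^ 2 + Real.cos (2 * Real.pi * w.im) ^ 2)) := by ring
  rw [this, h1, h2]
  field_simp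

lemma kap_eq {w w' : ℂ} (hw : 0 < w.re) (hw' : 0 < w'.re) (h : kap w = kap w') :
    w.re = w'.re ∧ ∃ k : ℤ, w.im - w'.im = k := by
  have h1 : w.re = w'.re := by
    rw [← kap_norm_sq hw.le, ← kap_norm_sq hw'.le, h]
  refine ⟨h1, ?_⟩
  unfold kap at h
  rw [Complex.mk.injEq, h1] at h
  have hne : Real.sqrt (w'.re / Real.pi) ≠ 0 := by
    have : 0 < w'.re / Real.pi := by positivity
    positivity
  have hc := mul_left_cancel₀ hne h.1
  have hs := mul_left_cancel₀ hne h.2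
  have := Real.Angle.cos_sin_inj hc hs
  rw [Real.Angle.angle_eq_iff_two_pi_dvd_sub] at this
  obtain ⟨k, hk⟩ := this
  refine ⟨k, ?_⟩
  have hpi : (2 * Real.pi) ≠ 0 := by positivity
  have : 2 * Real.pi * (w.im - w'.im) = 2 * Real.pi * k := by linarith
  exact mul_left_cancel₀ hpi this

lemma good1_kap {w : ℂ} (hw : 0 < w.re) : Good1 kap w := by
  have hre : HasFDerivAt Complex.re Complex.reCLM w := Complex.reCLM.hasFDerivAt
  have him : HasFDerivAt Complex.im Complex.imCLM w := Complex.imCLM.hasFDerivAt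
  have hq : w.re / Real.pi ≠ 0 := by positivity
  have h1 : HasFDerivAt (fun w : ℂ => Real.sqrt (w.re / Real.pi)) ((1 / (2 * Real.sqrt (w.re / Real.pi))) • (Real.pi⁻¹ • Complex.reCLM)) w := by
    have : HasFDerivAt (fun w : ℂ => w.re / Real.pi) (Real.pi⁻¹ • Complex.reCLM) w := by
      have := hre.const_mul Real.pi⁻¹
      simpa [div_eq_inv_mul] using this
    exact this.sqrt hq
  have h0 : HasFDerivAt (fun w : ℂ => 2 * Real.pi * w.im) ((2 * Real.pi) • Complex.imCLM) w := him.const_mul _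
  have h2 := h1.mul h0.cos
  have h3 := h1.mul h0.sin
  have cs : ContDiffAt ℝ ∞ (fun w : ℂ => Real.sqrt (w.re / Real.pi)) w := by
    refine ContDiffAt.sqrt ?_ hq
    exact (contDiff_re.div_const _).contDiffAt
  have c0 : ContDiffAt ℝ ∞ (fun w : ℂ => 2 * Real.pi * w.im) w :=
    (contDiff_const.mul contDiff_im).contDiffAt
  refine good1_mk (cs.mul c0.cos) (cs.mul c0.sin) h2 h3 ?_
  intro u v
  have hs : Real.sqrt (w.re / Real.pi) ≠ 0 := by positivity
  have hpi := Real.pi_ne_zero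
  have hcs : Real.cos (2 * Real.pi * w.im) ^ 2 = 1 - Real.sin (2 * Real.pi * w.im) ^ 2 := Real.cos_sq' _
  simp [ar]
  generalize Real.sqrt (w.re / Real.pi) = S at *
  generalize Real.cos (2 * Real.pi * w.im) = C at *
  generalize Real.sin (2 * Real.pi * w.im) = T at *
  field_simp
  ring_nf
  rw [hcs]
  ring

end Vale.Agent.Lib.P209
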