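import Mathlib
import Vale.Agent.Lib.P209.Defs
import Vale.Agent.Lib.P209.Toric

open scoped ContDiff Topology

noncomputable section

namespace Vale.Agent.Lib.P209

lemma stdForm_nondeg {n : ℕ} {u : Fin n → ℂ} (h : ∀ v, stdForm u v = 0) : u = 0 := by
  funext j
  have h1 := h (Pi.single j 1)
  have h2 := h (Pi.single j Complex.I)
  unfold stdForm at h1 h2
  rw [Finset.sum_eq_single j] at h1 h2
  · simp at h1 h2
    exact Complex.ext h2 h1
  · intro b _ hb
    simp [hb]
  · simp
  · intro b _ hb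
    simp [hb]
  · simp

lemma GoodN.map_nhds {n : ℕ} {f : (Fin n → ℂ) → (Fin n → ℂ)} {z : Fin n → ℂ} (h : GoodN f z) :
    Filter.map f (𝓝 z) = 𝓝 (f z) := by
  have hs : HasStrictFDerivAt f (fderiv ℝ f z) z := h.1.hasStrictFDerivAt (by simp)
  apply hs.map_nhds_eq_of_surj
  have hinj : Function.Injective (fderiv ℝ f z) := by
    rw [injective_iff_map_eq_zero]
    intro u hu
    apply stdForm_nondeg
    intro v
    rw [← h.2 u v, hu]
    simp [stdForm]
  have hsurj : Function.Surjective ((fderiv ℝ f z) : (Fin n → ℂ) →ₗ[ℝ] (Fin n → ℂ)) :=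
    LinearMap.injective_iff_surjective.1 hinj
  exact LinearMap.range_eq_top.2 hsurj

lemma isOpenEmbedding_of_good {n : ℕ} {f : (Fin n → ℂ) → (Fin n → ℂ)} {U : Set (Fin n → ℂ)}
    (hU : IsOpen U) (hg : ∀ z ∈ U, GoodN f z) (hinj : Set.InjOn f U) :
    Topology.IsOpenEmbedding (U.domRestrict f) := by
  apply Topology.IsOpenEmbedding.of_continuous_injective_isOpenMap
  · rw [← continuousOn_iff_continuous_domRestrict]
    intro z hz
    exact (hg z hz).1.continuousAt.continuousWithinAt
  · exact Set.injOn_iff_injective.1 hinj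
  · rw [isOpenMap_iff_nhds_le]
    rintro ⟨z, hz⟩
    have h1 : Filter.map (U.domRestrict f) (𝓝 (⟨z, hz⟩ : U)) = Filter.map f (𝓝 z) := by
      have : U.domRestrict f = f ∘ Subtype.val := rfl
      rw [this, ← Filter.map_map, map_nhds_subtype_coe_eq_nhds hz (hU.mem_nhds hz)]
    rw [h1, (hg z hz).map_nhds]
    exact le_rfl

/-! ### Linear part -/

def linPart {n : ℕ} (A B : Matrix (Fin n) (Fin n) ℤ) (c : Fin n → ℝ) (w : Fin n → ℂ) : Fin n → ℂ :=
  fun i => ⟨(∑ j, (A i j : ℝ) * (w j).re) + c i, ∑ j, (B i j : ℝ) * (w j).im⟩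

lemma key_bilin {n : ℕ} {A B : Matrix (Fin n) (Fin n) ℤ} (hAB : A.transpose * B = 1)
    (a b : Fin n → ℝ) :
    ∑ i, (∑ j, (A i j : ℝ) * a j) * (∑ j, (B i j : ℝ) * b j) = ∑ j, a j * b j := by
  have h : ∀ j k, ∑ i, (A i j : ℝ) * (B i k : ℝ) = if j = k then 1 else 0 := by
    intro j k
    have := congrFun (congrFun hAB j) k
    rw [Matrix.mul_apply, Matrix.one_apply] at this
    simp only [Matrix.transpose_apply] at this
    have h2 : ((∑ i, A i j * B i k : ℤ) : ℝ) = ((if j = k then 1 else 0 : ℤ) : ℝ) := by rw [this]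
    push_cast at h2
    exact h2
  calc ∑ i, (∑ j, (A i j : ℝ) * a j) * (∑ k, (B i k : ℝ) * b k)
      = ∑ i, ∑ j, ∑ k, ((A i j : ℝ) * a j) * ((B i k : ℝ) * b k) := by
        apply Finset.sum_congr rfl; intro i _; rw [Finset.sum_mul_sum]
    _ = ∑ j, ∑ k, ∑ i, ((A i j : ℝ) * a j) * ((B i k : ℝ) * b k) := by
        rw [Finset.sum_comm]
        apply Finset.sum_congr rfl; intro j _
        rw [Finset.sum_comm]
    _ = ∑ j, ∑ k, (a j * b k) * ∑ i, (A i j : ℝ) * (B i k : ℝ) := by
        apply Finset.sum_congr rfl; intro j _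
        apply Finset.sum_congr rfl; intro k _
        rw [Finset.mul_sum]
        apply Finset.sum_congr rfl; intro i _
        ring
    _ = ∑ j, a j * b j := by
        apply Finset.sum_congr rfl; intro j _
        simp only [h]
        simp

lemma key_inv {n : ℕ} {A B : Matrix (Fin n) (Fin n) ℤ} (hAB : A.transpose * B = 1)
    (b : Fin n → ℝ) (j : Fin n) :
    ∑ i, (A i j : ℝ) * (∑ k, (B i k : ℝ) * b k) = b j := by
  have := key_bilin hAB (Pi.single j 1) b
  simpa [Pi.single_apply] using this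

lemma goodN_linPart {n : ℕ} {A B : Matrix (Fin n) (Fin n) ℤ} (hAB : A.transpose * B = 1)
    (c : Fin n → ℝ) (w : Fin n → ℂ) : GoodN (linPart A B c) w := by
  let L : (Fin n → ℂ) →ₗ[ℝ] (Fin n → ℂ) :=
    { toFun := fun w i => ⟨(∑ j, (A i j : ℝ) * (w j).re), ∑ j, (B i j : ℝ) * (w j).im⟩
      map_add' := by
        intro x y
        funext i
        apply Complex.ext
        · simp [mul_add, Finset.sum_add_distrib]
        · simp [mul_add, Finset.sum_add_distrib]
      map_smul' := by
        intro t x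
        funext i
        apply Complex.ext
        · simp only [Pi.smul_apply, Complex.smul_re, RingHom.id_apply, smul_eq_mul, Finset.mul_sum]
          apply Finset.sum_congr rfl; intro j _; ring
        · simp only [Pi.smul_apply, Complex.smul_im, RingHom.id_apply, smul_eq_mul, Finset.mul_sum]
          apply Finset.sum_congr rfl; intro j _; ring }
  let L' : (Fin n → ℂ) →L[ℝ] (Fin n → ℂ) := LinearMap.toContinuousLinearMap L
  have hL : linPart A B c = fun w => L' w + fun i => ((c i : ℝ) : ℂ) := by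
    funext w i
    apply Complex.ext
    · simp [linPart, L', L]
    · simp [linPart, L', L]
  have hd : HasFDerivAt (linPart A B c) L' w := by
    rw [hL]
    exact L'.hasFDerivAt.add_const _
  refine ⟨?_, fun u v => ?_⟩
  · rw [hL]
    exact (L'.contDiff.add contDiff_const).contDiffAt
  · rw [hd.fderiv]
    have hre : ∀ (u : Fin n → ℂ) i, (L' u i).re = ∑ j, (A i j : ℝ) * (u j).re := fun u i => rfl
    have him : ∀ (u : Fin n → ℂ) i, (L' u i).im = ∑ j, (B i j : ℝ) * (u j).im := fun u i => rfl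
    unfold stdForm
    simp only [hre, him, Finset.sum_sub_distrib]
    rw [key_bilin hAB (fun j => (u j).re) (fun j => (v j).im)]
    have e : ∑ x, (∑ j, (B x j : ℝ) * (u j).im) * ∑ j, (A x j : ℝ) * (v j).re
        = ∑ x, (∑ j, (A x j : ℝ) * (v j).re) * (∑ j, (B x j : ℝ) * (u j).im) := by
      apply Finset.sum_congr rfl; intro i _; ring
    rw [e, key_bilin hAB (fun j => (v j).re) (fun j => (u j).im)]
    congr 1
    apply Finset.sum_congr rfl; intro i _; ring

/-- The toric embedding lemma. -/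
theorem toric_embedding {n : ℕ} {r s : ℝ} (hr : 0 < r) (hrs : r < s)
    (A B : Matrix (Fin n) (Fin n) ℤ) (hAB : A.transpose * B = 1) (c : Fin n → ℝ)
    (hpos : ∀ x : Fin n → ℝ, (∀ i, 0 < x i) → ∑ i, x i < s →
      ∀ i, 0 < (∑ j, (A i j : ℝ) * x j) + c i) :
    ∃ φ : (Fin n → ℂ) → (Fin n → ℂ), IsSymplecticBallEmbedding n r φ ∧
      ∀ z ∈ capBall n r, ∃ x : Fin n → ℝ, (∀ i, 0 < x i) ∧ ∑ i, x i < s ∧
        ∀ i, Real.pi * ‖φ z i‖ ^ 2 = (∑ j, (A i j : ℝ) * x j) + c i := by
  obtain ⟨r1, hr1, hr1s⟩ := exists_between hrs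
  have hr1pos : 0 < r1 := hr.trans hr1
  set ρ : ℝ := r1 + 1 with hρ
  have hρpos : 0 < ρ := by positivity
  obtain ⟨δ, hδ, hδ1, hδs⟩ : ∃ δ : ℝ, 0 < δ ∧ δ ≤ 1 ∧ n * Real.pi * (δ * (6 * ρ + 5)) ≤ s - r1 := by
    have hC : 0 < (n * Real.pi * (6 * ρ + 5) + 1) := by positivity
    have hs : 0 < s - r1 := by linarith
    refine ⟨min 1 ((s - r1) / (n * Real.pi * (6 * ρ + 5) + 1)), ?_, min_le_left _ _, ?_⟩
    · exact lt_min one_pos (by positivity)
    · have h1 : min 1 ((s - r1) / (n * Real.pi * (6 * ρ + 5) + 1)) ≤ ((s - r1) / (n * Real.pi * (6 * ρ + 5) + 1)) := min_le_right _ _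
      have h0 : 0 < min 1 ((s - r1) / (n * Real.pi * (6 * ρ + 5) + 1)) := lt_min one_pos (by positivity)
      generalize min 1 ((s - r1) / (n * Real.pi * (6 * ρ + 5) + 1)) = t at *
      rw [le_div_iff₀ hC] at h1
      nlinarith
  set M : ℝ := ρ / δ ^ 2 with hM
  have hMpos : 0 < M := by positivity
  have hM' : ρ < δ * (1 + δ * M) := by
    rw [hM]
    have : δ * (1 + δ * (ρ / δ ^ 2)) = δ + ρ := by field_simp
    rw [this]; linarith
  set U : Set (Fin n → ℂ) := {z | Real.pi * ∑ j, ‖z j‖ ^ 2 < r1} with hUdef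
  have hUopen : IsOpen U := by
    apply isOpen_lt
    · fun_prop
    · exact continuous_const
  have hsub : capBall n r ⊆ U := by
    intro z hz
    have hz' : Real.pi * ∑ j, ‖z j‖ ^ 2 ≤ r := hz
    show Real.pi * ∑ j, ‖z j‖ ^ 2 < r1
    linarith
  have hnorm : ∀ z ∈ U, ∀ j, ‖z j‖ ≤ ρ := by
    intro z hz j
    have hz' : Real.pi * ∑ j, ‖z j‖ ^ 2 < r1 := hz
    have h1 : ‖z j‖ ^ 2 ≤ ∑ j, ‖z j‖ ^ 2 :=
      Finset.single_le_sum (f := fun j => ‖z j‖ ^ 2) (fun i _ => by positivity) (Finset.mem_univ j)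
    have h0 : 0 ≤ ∑ j, ‖z j‖ ^ 2 := by positivity
    have h2 : ∑ j, ‖z j‖ ^ 2 ≤ Real.pi * ∑ j, ‖z j‖ ^ 2 := by
      have := Real.pi_gt_three
      nlinarith
    have h3 : ‖z j‖ ^ 2 ≤ ρ ^ 2 := by nlinarith
    exact (pow_le_pow_iff_left₀ (norm_nonneg _) hρpos.le two_ne_zero).1 h3
  have hslit : ∀ z ∈ U, ∀ j, tau δ M (z j) ∈ Complex.slitPlane := by
    intro z hz j
    apply tau_mem_slitPlane hδ hMpos hM'
    exact (Complex.abs_re_le_norm _).trans (hnorm z hz j)
  set ψ : (Fin n → ℂ) → (Fin n → ℂ) := fun z j => lam (tau δ M (z j)) with hψ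
  have hψre : ∀ z ∈ U, ∀ j, 0 < (ψ z j).re := by
    intro z hz j
    simp only [hψ, lam_re]
    have := Complex.slitPlane_ne_zero (hslit z hz j)
    have : 0 < ‖tau δ M (z j)‖ := norm_pos_iff.2 this
    positivity
  have hψsum : ∀ z ∈ U, ∑ j, (ψ z j).re < s := by
    intro z hz
    have hz' : Real.pi * ∑ j, ‖z j‖ ^ 2 < r1 := hz
    have : ∀ j, (ψ z j).re ≤ Real.pi * ‖z j‖ ^ 2 + Real.pi * (δ * (6 * ρ + 5)) := by
      intro j
      simp only [hψ, lam_re]
      rw [← mul_add]
      apply mul_le_mul_of_nonneg_left _ Real.pi_pos.le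
      exact tau_bound hδ hMpos hδ1 ((Complex.abs_re_le_norm _).trans (hnorm z hz j))
        ((Complex.abs_im_le_norm _).trans (hnorm z hz j))
    calc ∑ j, (ψ z j).re ≤ ∑ j : Fin n, (Real.pi * ‖z j‖ ^ 2 + Real.pi * (δ * (6 * ρ + 5))) :=
          Finset.sum_le_sum fun j _ => this j
      _ = Real.pi * ∑ j, ‖z j‖ ^ 2 + n * Real.pi * (δ * (6 * ρ + 5)) := by
          rw [Finset.sum_add_distrib, ← Finset.mul_sum]
          simp
          ring
      _ < s := by linarith
  have hψgood : ∀ z ∈ U, GoodN ψ z := by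
    intro z hz
    apply GoodN.pi (f := fun x => lam (tau δ M x))
    intro j
    exact (good1_lam (hslit z hz j)).comp (good1_tau hδ hMpos (z j))
  set φ : (Fin n → ℂ) → (Fin n → ℂ) := fun z i => kap (linPart A B c (ψ z) i) with hφ
  have hlinre : ∀ z ∈ U, ∀ i, 0 < (linPart A B c (ψ z) i).re := by
    intro z hz i
    exact hpos (fun j => (ψ z j).re) (hψre z hz) (hψsum z hz) i
  have hφgood : ∀ z ∈ U, GoodN φ z := by
    intro z hz
    have h1 : GoodN (fun z => linPart A B c (ψ z)) z := (goodN_linPart hAB c (ψ z)).comp (hψgood z hz)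
    have h2 : GoodN (fun w : Fin n → ℂ => fun i => kap (w i)) (linPart A B c (ψ z)) :=
      GoodN.pi fun j => good1_kap (hlinre z hz j)
    exact GoodN.comp (g := fun w : Fin n → ℂ => fun i => kap (w i)) (f := fun z => linPart A B c (ψ z)) h2 h1
  have hφinj : Set.InjOn φ U := by
    intro z hz w hw h
    have h1 : ∀ i, kap (linPart A B c (ψ z) i) = kap (linPart A B c (ψ w) i) := fun i => congrFun h i
    have h2 := fun i => kap_eq (hlinre z hz i) (hlinre w hw i) (h1 i)
    choose h3 k hk using h2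
    -- real parts agree
    have hBA : B.transpose * A = 1 := by
      have := congrArg Matrix.transpose hAB
      simpa [Matrix.transpose_mul] using this
    have hre : ∀ j, (ψ z j).re = (ψ w j).re := by
      intro j
      rw [← key_inv hBA (fun j => (ψ z j).re) j, ← key_inv hBA (fun j => (ψ w j).re) j]
      apply Finset.sum_congr rfl
      intro i _
      have := h3 i
      simp only [linPart] at this
      have h4 : ∑ j, (A i j : ℝ) * (ψ z j).re = ∑ j, (A i j : ℝ) * (ψ w j).re := by linarith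
      rw [h4]
    have him : ∀ j, (ψ z j).im = (ψ w j).im := by
      intro j
      have e1 := key_inv hAB (fun j => (ψ z j).im) j
      have e2 := key_inv hAB (fun j => (ψ w j).im) j
      have e3 : (ψ z j).im - (ψ w j).im = ((∑ i, A i j * k i : ℤ) : ℝ) := by
        rw [← e1, ← e2, ← Finset.sum_sub_distrib]
        push_cast
        apply Finset.sum_congr rfl
        intro i _
        have := hk i
        simp only [linPart] at this
        rw [← this]
        ring
      have b1 : ∀ x : ℂ, -(1/2) < (lam x).im ∧ (lam x).im ≤ 1/2 := by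
        intro x
        rw [lam_im]
        have h1 := Complex.neg_pi_lt_arg x
        have h2 := Complex.arg_le_pi x
        have hp := Real.pi_pos
        rw [inv_mul_eq_div, lt_div_iff₀ (by positivity), div_le_iff₀ (by positivity)]
        constructor <;> linarith
      have b2 := b1 (tau δ M (z j))
      have b3 := b1 (tau δ M (w j))
      have b4 : |((∑ i, A i j * k i : ℤ) : ℝ)| < 1 := by
        rw [← e3, abs_lt]
        simp only [hψ]
        constructor <;> linarith
      have b5 : (∑ i, A i j * k i : ℤ) = 0 := by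
        have : |(∑ i, A i j * k i : ℤ)| < 1 := by exact_mod_cast b4
        exact Int.abs_lt_one_iff.1 this
      rw [b5] at e3
      simp at e3
      linarith
    funext j
    have : ψ z j = ψ w j := Complex.ext (hre j) (him j)
    exact tau_injective hδ hMpos (lam_injOn (hslit z hz j) (hslit w hw j) this)
  refine ⟨φ, ⟨U, hUopen, hsub, ?_, isOpenEmbedding_of_good hUopen hφgood hφinj, ?_⟩, ?_⟩
  · intro z hz
    exact (hφgood z hz).1.contDiffWithinAt
  · intro z hz
    exact (hφgood z hz).2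
  · intro z hz
    have hzU := hsub hz
    refine ⟨fun j => (ψ z j).re, hψre z hzU, hψsum z hzU, fun i => ?_⟩
    simp only [hφ]
    rw [kap_norm_sq (hlinre z hzU i).le]
    rfl

end Vale.Agent.Lib.P209
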