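import Mathlib
import Vale.Agent.Lib.P209.Defs
import Vale.Agent.Lib.P209.Embed

open scoped ContDiff Topology

noncomputable section

namespace Vale.Agent.Lib.P209

/-- Packing from disjoint unimodular simplices in the moment polytope. -/
theorem pack_of_toric {n k : ℕ} {R : ℝ} {r s : Fin k → ℝ}
    (A B : Fin k → Matrix (Fin n) (Fin n) ℤ) (hAB : ∀ i, (A i).transpose * B i = 1)
    (c : Fin k → Fin n → ℝ) (hr : ∀ i, 0 < r i) (hrs : ∀ i, r i < s i)
    (S : Fin k → Set (Fin n → ℝ))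
    (hS : ∀ i, ∀ x : Fin n → ℝ, (∀ j, 0 < x j) → ∑ j, x j < s i →
      (fun l => (∑ j, (A i l j : ℝ) * x j) + c i l) ∈ S i)
    (hSR : ∀ i, ∀ y ∈ S i, (∀ j, 0 < y j) ∧ ∑ j, y j < R)
    (hdisj : ∀ i j, i ≠ j → Disjoint (S i) (S j)) : BallsPack n k R r := by
  have h := fun i => toric_embedding (hr i) (hrs i) (A i) (B i) (hAB i) (c i)
    (fun x hx hx' => (hSR i _ (hS i x hx hx')).1)
  choose φ hφ hφ' using h
  have hmem : ∀ i, ∀ z ∈ capBall n (r i), (fun l => Real.pi * ‖φ i z l‖ ^ 2) ∈ S i := by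
    intro i z hz
    obtain ⟨x, hx, hx', hx''⟩ := hφ' i z hz
    have := hS i x hx hx'
    convert this using 1
    funext l
    exact hx'' l
  refine ⟨φ, hφ, ?_, ?_⟩
  · intro i
    rintro _ ⟨z, hz, rfl⟩
    have h1 := (hSR i _ (hmem i z hz)).2
    have hopen : IsOpen {z : Fin n → ℂ | Real.pi * ∑ j, ‖z j‖ ^ 2 < R} := by
      apply isOpen_lt
      · fun_prop
      · exact continuous_const
    have hsub : {z : Fin n → ℂ | Real.pi * ∑ j, ‖z j‖ ^ 2 < R} ⊆ capBall n R := by
      intro z hz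
      exact le_of_lt (show Real.pi * ∑ j, ‖z j‖ ^ 2 < R from hz)
    apply interior_maximal hsub hopen
    show Real.pi * ∑ j, ‖φ i z j‖ ^ 2 < R
    rw [Finset.mul_sum]
    exact h1
  · intro i j hij
    rw [Set.disjoint_left]
    rintro _ ⟨z, hz, rfl⟩ ⟨w, hw, hzw⟩
    have h1 := hmem i z hz
    have h2 := hmem j w hw
    rw [hzw] at h2
    exact Set.disjoint_left.1 (hdisj i j hij) h1 h2

/-! ### Difference and partial sum matrices -/

def Lm (n : ℕ) : Matrix (Fin n) (Fin n) ℤ := fun i j => if j ≤ i then 1 else 0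

def Dm (n : ℕ) : Matrix (Fin n) (Fin n) ℤ :=
  fun i j => if j = i then 1 else if (j : ℕ) + 1 = (i : ℕ) then -1 else 0

lemma sum_Dm {n : ℕ} {K : Type*} [Ring K] (y : Fin n → K) (i : Fin n) :
    ∑ l, ((Dm n i l : ℤ) : K) * y l
      = y i - (if h : (i : ℕ) = 0 then 0 else y ⟨(i : ℕ) - 1, by omega⟩) := by
  have h1 : ∀ l : Fin n, ((Dm n i l : ℤ) : K) * y l
      = (if l = i then y l else 0) - (if (l : ℕ) + 1 = (i : ℕ) then y l else 0) := by
    intro l
    unfold Dm
    by_cases h : l = i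
    · subst h
      simp
    · by_cases h' : (l : ℕ) + 1 = (i : ℕ)
      · simp [h, h']
      · simp [h, h']
  simp only [h1, Finset.sum_sub_distrib]
  congr 1
  · simp
  · by_cases h : (i : ℕ) = 0
    · simp only [h, dite_true]
      apply Finset.sum_eq_zero
      intro l _
      simp
    · simp only [h, dite_false]
      rw [Finset.sum_eq_single ⟨(i : ℕ) - 1, by omega⟩]
      · simp
        omega
      · intro b _ hb
        have : ¬ ((b : ℕ) + 1 = (i : ℕ)) := by
          intro hb'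
          apply hb
          apply Fin.ext
          simp
          omega
        simp [this]
      · simp

lemma Dm_mul_Lm (n : ℕ) : Dm n * Lm n = 1 := by
  ext i j
  rw [Matrix.mul_apply, Matrix.one_apply]
  have := sum_Dm (K := ℤ) (fun l => Lm n l j) i
  simp only [Int.cast_id] at this
  rw [this]
  unfold Lm
  by_cases h : (i : ℕ) = 0
  · simp only [h, dite_true]
    by_cases hij : i = j
    · simp [hij]
    · have : ¬ (j ≤ i) := by
        intro h'
        apply hij
        apply Fin.ext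
        have : (j : ℕ) ≤ i := h'
        omega
      simp [hij, this]
  · simp only [h, dite_false]
    by_cases hij : i = j
    · subst hij
      have : ¬ (i ≤ (⟨(i : ℕ) - 1, by omega⟩ : Fin n)) := by
        intro h'
        have : (i : ℕ) ≤ (i : ℕ) - 1 := h'
        omega
      simp [this]
    · by_cases hle : j ≤ i
      · have : (j ≤ (⟨(i : ℕ) - 1, by omega⟩ : Fin n)) := by
          show (j : ℕ) ≤ (i : ℕ) - 1
          have h1 : (j : ℕ) ≤ i := hle
          have h2 : (i : ℕ) ≠ j := fun h => hij (Fin.ext h)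
          omega
        simp [this, hle, hij]
      · have : ¬ (j ≤ (⟨(i : ℕ) - 1, by omega⟩ : Fin n)) := by
          intro h'
          apply hle
          show (j : ℕ) ≤ (i : ℕ)
          have : (j : ℕ) ≤ (i : ℕ) - 1 := h'
          omega
        simp [this, hle, hij]

lemma Lm_mul_Dm (n : ℕ) : Lm n * Dm n = 1 := mul_eq_one_comm.1 (Dm_mul_Lm n)

/-- partial sums recover `y` from its differences -/
lemma sum_Lm_Dm {n : ℕ} (y : Fin n → ℝ) (i : Fin n) :
    ∑ l, ((Lm n i l : ℤ) : ℝ) * ∑ j, ((Dm n l j : ℤ) : ℝ) * y j = y i := by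
  have h : ∀ j, ∑ l, ((Lm n i l : ℤ) : ℝ) * ((Dm n l j : ℤ) : ℝ) = if i = j then 1 else 0 := by
    intro j
    have := congrFun (congrFun (Lm_mul_Dm n) i) j
    rw [Matrix.mul_apply, Matrix.one_apply] at this
    have h2 : ((∑ l, Lm n i l * Dm n l j : ℤ) : ℝ) = ((if i = j then 1 else 0 : ℤ) : ℝ) := by
      rw [this]
    push_cast at h2
    exact h2
  simp only [Finset.mul_sum]
  rw [Finset.sum_comm]
  simp only [← mul_assoc, ← Finset.sum_mul, h]
  simp

/-- The matrix attached to a permutation. -/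
def Am {n : ℕ} (σ : Equiv.Perm (Fin n)) : Matrix (Fin n) (Fin n) ℤ :=
  Dm n * (Lm n).submatrix σ id

def Bm {n : ℕ} (σ : Equiv.Perm (Fin n)) : Matrix (Fin n) (Fin n) ℤ :=
  (Lm n).transpose * ((Dm n).transpose).submatrix σ id

lemma Am_Bm {n : ℕ} (σ : Equiv.Perm (Fin n)) : (Am σ).transpose * Bm σ = 1 := by
  unfold Am Bm
  rw [Matrix.transpose_mul, Matrix.mul_assoc, ← Matrix.mul_assoc (Dm n).transpose,
    ← Matrix.transpose_mul, Lm_mul_Dm, Matrix.transpose_one, Matrix.one_mul,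
    Matrix.transpose_submatrix, Matrix.submatrix_mul_equiv, ← Matrix.transpose_mul, Dm_mul_Lm,
    Matrix.transpose_one]
  simp

lemma Am_apply {n : ℕ} (σ : Equiv.Perm (Fin n)) (x : Fin n → ℝ) (i : Fin n) :
    ∑ j, ((Am σ i j : ℤ) : ℝ) * x j
      = ∑ l, ((Dm n i l : ℤ) : ℝ) * (∑ j, ((Lm n (σ l) j : ℤ) : ℝ) * x j) := by
  unfold Am
  simp only [Matrix.mul_apply, Matrix.submatrix_apply, id]
  push_cast
  simp only [Finset.sum_mul, Finset.mul_sum]
  rw [Finset.sum_comm]
  apply Finset.sum_congr rfl; intro l _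
  apply Finset.sum_congr rfl; intro j _
  ring

/-- partial sums -/
def psum {n : ℕ} (x : Fin n → ℝ) (i : Fin n) : ℝ := ∑ j, ((Lm n i j : ℤ) : ℝ) * x j

lemma psum_eq {n : ℕ} (x : Fin n → ℝ) (i : Fin n) :
    psum x i = ∑ j ∈ Finset.univ.filter (fun j => j ≤ i), x j := by
  unfold psum Lm
  rw [Finset.sum_filter]
  apply Finset.sum_congr rfl
  intro j _
  by_cases h : j ≤ i <;> simp [h]

lemma psum_strictMono {n : ℕ} {x : Fin n → ℝ} (hx : ∀ j, 0 < x j) : StrictMono (psum x) := by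
  intro i j hij
  rw [psum_eq, psum_eq]
  apply Finset.sum_lt_sum_of_subset (i := j)
  · intro l hl
    simp only [Finset.mem_filter, Finset.mem_univ, true_and] at hl ⊢
    exact hl.trans hij.le
  · simp
  · simpa using hij
  · exact hx j
  · intro l _ _
    exact (hx l).le

lemma psum_pos {n : ℕ} {x : Fin n → ℝ} (hx : ∀ j, 0 < x j) (i : Fin n) : 0 < psum x i := by
  rw [psum_eq]
  apply Finset.sum_pos (fun j _ => hx j)
  exact ⟨i, by simp⟩

lemma psum_le_sum {n : ℕ} {x : Fin n → ℝ} (hx : ∀ j, 0 < x j) (i : Fin n) :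
    psum x i ≤ ∑ j, x j := by
  rw [psum_eq]
  apply Finset.sum_le_sum_of_subset_of_nonneg (Finset.subset_univ _)
  intro j _ _
  exact (hx j).le

lemma psum_last {n : ℕ} (hn : 0 < n) (x : Fin n → ℝ) :
    psum x ⟨n - 1, by omega⟩ = ∑ j, x j := by
  rw [psum_eq]
  congr 1
  ext j
  simp only [Finset.mem_filter, Finset.mem_univ, true_and, iff_true]
  show (j : ℕ) ≤ n - 1
  have := j.2
  omega

/-- the piece attached to a permutation `σ` and offsets `f` -/
def cvec {n : ℕ} (f : Fin n → ℝ) (i : Fin n) : ℝ := ∑ l, ((Dm n i l : ℤ) : ℝ) * f l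

lemma piece_eq {n : ℕ} (σ : Equiv.Perm (Fin n)) (f : Fin n → ℝ) (x : Fin n → ℝ) (i : Fin n) :
    (∑ j, ((Am σ i j : ℤ) : ℝ) * x j) + cvec f i
      = ∑ l, ((Dm n i l : ℤ) : ℝ) * (psum x (σ l) + f l) := by
  rw [Am_apply]
  unfold cvec psum
  rw [← Finset.sum_add_distrib]
  apply Finset.sum_congr rfl; intro l _
  ring

lemma psum_piece {n : ℕ} (σ : Equiv.Perm (Fin n)) (f : Fin n → ℝ) (x : Fin n → ℝ) (i : Fin n) :
    psum (fun l => (∑ j, ((Am σ l j : ℤ) : ℝ) * x j) + cvec f l) i = psum x (σ i) + f i := by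
  have : (fun l => (∑ j, ((Am σ l j : ℤ) : ℝ) * x j) + cvec f l)
      = fun l => ∑ j, ((Dm n l j : ℤ) : ℝ) * (psum x (σ j) + f j) := by
    funext l
    exact piece_eq σ f x l
  rw [this]
  exact sum_Lm_Dm (fun j => psum x (σ j) + f j) i

lemma diff_pos {n : ℕ} {y : Fin n → ℝ} (hy : StrictMono y) (hy0 : ∀ i, 0 < y i) (i : Fin n) :
    0 < ∑ l, ((Dm n i l : ℤ) : ℝ) * y l := by
  rw [sum_Dm]
  by_cases h : (i : ℕ) = 0
  · simp only [h, dite_true, sub_zero]
    exact hy0 i
  · simp only [h, dite_false]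
    have : (⟨(i : ℕ) - 1, by omega⟩ : Fin n) < i := by
      show (i : ℕ) - 1 < (i : ℕ)
      omega
    have := hy this
    linarith

end Vale.Agent.Lib.P209
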