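import Mathlib
import Vale.Agent.Lib.P209.Defs
import Vale.Agent.Lib.P209.Pack

open scoped ContDiff Topology

noncomputable section

namespace Vale.Agent.Lib.P209

/-- offsets -/
def off (m : ℕ) (a b : ℝ) (c : ℕ) : ℝ := if c < m then c * b else a + ((c : ℝ) - m) * b

lemma off_gap {m : ℕ} {a b : ℝ} (hb : 0 < b) (hab : m * b ≤ a) {c c' : ℕ} (h : c < c') :
    off m a b c + b ≤ off m a b c' := by
  have hcc : (c : ℝ) + 1 ≤ c' := by exact_mod_cast h
  unfold off
  by_cases h1 : c < m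
  · by_cases h2 : c' < m
    · simp only [h1, h2, if_true]
      nlinarith
    · simp only [h1, h2, if_true, if_false]
      have h3 : (c : ℝ) + 1 ≤ m := by exact_mod_cast h1
      have h4 : (m : ℝ) ≤ c' := by exact_mod_cast (not_lt.1 h2)
      nlinarith
  · have h2 : ¬ c' < m := by omega
    simp only [h1, h2, if_false]
    nlinarith

lemma off_nonneg {m : ℕ} {a b : ℝ} (hb : 0 < b) (ha : 0 ≤ a) (c : ℕ) : 0 ≤ off m a b c := by
  unfold off
  by_cases h1 : c < m
  · simp only [h1, if_true]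
    positivity
  · simp only [h1, if_false]
    have h4 : (m : ℝ) ≤ c := by exact_mod_cast (not_lt.1 h1)
    have : 0 ≤ ((c : ℝ) - m) * b := mul_nonneg (by linarith) hb.le
    linarith

lemma off_ge {m : ℕ} {a b : ℝ} (hb : 0 < b) {c : ℕ} (h : m ≤ c) : a ≤ off m a b c := by
  unfold off
  have h1 : ¬ c < m := by omega
  simp only [h1, if_false]
  have h4 : (m : ℝ) ≤ c := by exact_mod_cast h
  have : 0 ≤ ((c : ℝ) - m) * b := mul_nonneg (by linarith) hb.le
  linarith

lemma off_le {m t : ℕ} {a b : ℝ} (hb : 0 < b) (hab : m * b ≤ a) {c : ℕ} (h : c < m + t)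
    (ht : 1 ≤ t) : off m a b c + b ≤ a + t * b := by
  have h0 : (1 : ℝ) ≤ t := by exact_mod_cast ht
  unfold off
  by_cases h1 : c < m
  · simp only [h1, if_true]
    have h3 : (c : ℝ) + 1 ≤ m := by exact_mod_cast h1
    nlinarith
  · simp only [h1, if_false]
    have h3 : (c : ℝ) + 1 ≤ m + t := by exact_mod_cast h
    nlinarith

/-- ordered sums attached to a word -/
def wsum {n N : ℕ} (o : ℕ → ℝ) (w : Fin n → Fin N) (x : Fin n → ℝ) (i : Fin n) : ℝ :=
  psum x (Tuple.sort w i) + o (w (Tuple.sort w i))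

lemma wsum_strictMono {n N : ℕ} {o : ℕ → ℝ} {b : ℝ}
    (ho : ∀ c c' : ℕ, c < c' → o c + b ≤ o c') (w : Fin n → Fin N) {x : Fin n → ℝ}
    (hx : ∀ j, 0 < x j) (hxb : ∑ j, x j < b) : StrictMono (wsum o w x) := by
  intro i j hij
  have hsort := (Tuple.eq_sort_iff (f := w) (σ := Tuple.sort w)).1 rfl
  unfold wsum
  have hmono : w (Tuple.sort w i) ≤ w (Tuple.sort w j) := hsort.1 hij.le
  rcases hmono.lt_or_eq with hlt | heq
  · have h1 := ho (w (Tuple.sort w i)) (w (Tuple.sort w j)) hlt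
    have h2 := psum_pos hx (Tuple.sort w j)
    have h3 := (psum_le_sum hx (Tuple.sort w i)).trans_lt hxb
    linarith
  · have h1 := hsort.2 i j hij heq
    have h2 := psum_strictMono hx h1
    rw [heq]
    linarith

lemma letter_eq {o : ℕ → ℝ} {b : ℝ} (ho : ∀ c c' : ℕ, c < c' → o c + b ≤ o c')
    {c c' : ℕ} {u u' : ℝ} (hu : 0 < u) (hu' : 0 < u') (hub : u < b) (hub' : u' < b)
    (h : u + o c = u' + o c') : c = c' := by
  rcases lt_trichotomy c c' with h1 | h1 | h1
  · have := ho c c' h1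
    linarith
  · exact h1
  · have := ho c' c h1
    linarith

lemma word_eq {n N : ℕ} {o : ℕ → ℝ} {b : ℝ}
    (ho : ∀ c c' : ℕ, c < c' → o c + b ≤ o c') {w w' : Fin n → Fin N} {x x' : Fin n → ℝ}
    (hx : ∀ j, 0 < x j) (hxb : ∑ j, x j < b) (hx' : ∀ j, 0 < x' j) (hxb' : ∑ j, x' j < b)
    (h : ∀ i, wsum o w x i = wsum o w' x' i) : w = w' := by
  have hlet : ∀ i, w (Tuple.sort w i) = w' (Tuple.sort w' i) := by
    intro i
    have := h i
    unfold wsum at this
    exact Fin.ext (letter_eq ho (psum_pos hx _) (psum_pos hx' _)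
      ((psum_le_sum hx _).trans_lt hxb) ((psum_le_sum hx' _).trans_lt hxb') this)
  have hps : ∀ i, psum x (Tuple.sort w i) = psum x' (Tuple.sort w' i) := by
    intro i
    have := h i
    unfold wsum at this
    rw [hlet i] at this
    linarith
  have hrange : Set.range (psum x) = Set.range (psum x') := by
    have h1 : Set.range (psum x) = Set.range (psum x ∘ Tuple.sort w) :=
      ((Tuple.sort w).surjective.range_comp (psum x)).symm
    have h2 : Set.range (psum x') = Set.range (psum x' ∘ Tuple.sort w') :=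
      ((Tuple.sort w').surjective.range_comp (psum x')).symm
    rw [h1, h2]
    congr 1
    funext i
    exact hps i
  have hpeq : psum x = psum x' :=
    (StrictMono.range_inj (psum_strictMono hx) (psum_strictMono hx')).1 hrange
  have hsort : ∀ i, Tuple.sort w i = Tuple.sort w' i := by
    intro i
    apply (psum_strictMono hx).injective
    rw [hps i, hpeq]
  funext j
  obtain ⟨i, rfl⟩ := (Tuple.sort w).surjective j
  rw [hlet i, ← hsort i]

/-- The region attached to a word. -/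
def region {n N : ℕ} (o : ℕ → ℝ) (b : ℝ) (w : Fin n → Fin N) : Set (Fin n → ℝ) :=
  {y | ∃ x : Fin n → ℝ, (∀ j, 0 < x j) ∧ ∑ j, x j < b ∧ 
    y = fun i => (∑ j, ((Am (Tuple.sort w) i j : ℤ) : ℝ) * x j)
      + cvec (fun l => o (w (Tuple.sort w l))) i}

lemma region_psum {n N : ℕ} {o : ℕ → ℝ} {b : ℝ} {w : Fin n → Fin N} {y : Fin n → ℝ}
    (hy : y ∈ region o b w) : ∃ x : Fin n → ℝ, (∀ j, 0 < x j) ∧ ∑ j, x j < b ∧
      ∀ i, psum y i = wsum o w x i := by
  obtain ⟨x, hx, hxb, rfl⟩ := hy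
  refine ⟨x, hx, hxb, fun i => ?_⟩
  rw [psum_piece]
  rfl

lemma region_pos {n N : ℕ} {o : ℕ → ℝ} {b : ℝ}
    (ho : ∀ c c' : ℕ, c < c' → o c + b ≤ o c') (ho0 : ∀ c, 0 ≤ o c) {w : Fin n → Fin N}
    {y : Fin n → ℝ} (hy : y ∈ region o b w) (i : Fin n) : 0 < y i := by
  obtain ⟨x, hx, hxb, rfl⟩ := hy
  simp only
  rw [piece_eq]
  apply diff_pos (y := fun l => psum x (Tuple.sort w l) + o (w (Tuple.sort w l)))
  · exact wsum_strictMono ho w hx hxb
  · intro i
    have := psum_pos hx (Tuple.sort w i)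
    have := ho0 (w (Tuple.sort w i))
    positivity

lemma region_disjoint {n N : ℕ} {o : ℕ → ℝ} {b : ℝ}
    (ho : ∀ c c' : ℕ, c < c' → o c + b ≤ o c') {w w' : Fin n → Fin N} (hne : w ≠ w') :
    Disjoint (region o b w) (region o b w') := by
  rw [Set.disjoint_left]
  intro y hy hy'
  obtain ⟨x, hx, hxb, h⟩ := region_psum hy
  obtain ⟨x', hx', hxb', h'⟩ := region_psum hy'
  apply hne
  apply word_eq ho hx hxb hx' hxb'
  intro i
  rw [← h i, ← h' i]

lemma sum_eq_psum_max {n : ℕ} (hn : 0 < n) (y : Fin n → ℝ) :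
    ∑ j, y j = psum y ⟨n - 1, by omega⟩ := (psum_last hn y).symm

lemma region_sum_lt {n N : ℕ} (hn : 0 < n) {o : ℕ → ℝ} {b R : ℝ} {w : Fin n → Fin N}
    (hR : ∀ c : Fin N, o c + b ≤ R)
    {y : Fin n → ℝ} (hy : y ∈ region o b w) : ∑ j, y j < R := by
  obtain ⟨x, hx, hxb, h⟩ := region_psum hy
  rw [sum_eq_psum_max hn, h]
  unfold wsum
  have h1 := hR (w (Tuple.sort w ⟨n - 1, by omega⟩))
  have h2 := (psum_le_sum hx (Tuple.sort w ⟨n - 1, by omega⟩)).trans_lt hxb
  linarith

lemma region_sum_gt {n N : ℕ} (hn : 0 < n) {o : ℕ → ℝ} {b a : ℝ} {w : Fin n → Fin N}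
    (ho : ∀ c c' : ℕ, c < c' → o c + b ≤ o c') {j₀ : Fin n} (ha : a ≤ o (w j₀))
    {y : Fin n → ℝ} (hy : y ∈ region o b w) : a < ∑ j, y j := by
  obtain ⟨x, hx, hxb, h⟩ := region_psum hy
  rw [sum_eq_psum_max hn, h]
  obtain ⟨i, rfl⟩ := (Tuple.sort w).surjective j₀
  have hle : i ≤ ⟨n - 1, by omega⟩ := by
    show (i : ℕ) ≤ n - 1
    have := i.2
    omega
  have h1 : wsum o w x i ≤ wsum o w x ⟨n - 1, by omega⟩ :=
    (wsum_strictMono ho w hx hxb).monotone hle
  have h2 : a < wsum o w x i := by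
    unfold wsum
    have := psum_pos hx (Tuple.sort w i)
    linarith
  linarith

lemma card_words (n m t : ℕ) :
    (m + t) ^ n ≤ Fintype.card {w : Fin n → Fin (m + t) // ∃ j, m ≤ (w j : ℕ)} + m ^ n := by
  classical
  have h1 := Fintype.card_subtype_compl (fun w : Fin n → Fin (m + t) => ∃ j, m ≤ (w j : ℕ))
  have h3 : Fintype.card {w : Fin n → Fin (m + t) // ¬ ∃ j, m ≤ (w j : ℕ)} ≤ m ^ n := by
    have : Fintype.card (Fin n → Fin m) = m ^ n := by simp
    rw [← this]
    apply Fintype.card_le_of_injective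
      (fun (w : {w : Fin n → Fin (m + t) // ¬ ∃ j, m ≤ (w j : ℕ)}) =>
        fun j => (⟨w.1 j, by
          have := w.2
          push Not at this
          exact this j⟩ : Fin m))
    intro w w' h
    apply Subtype.ext
    funext j
    have := congrFun h j
    simp only [Fin.mk.injEq] at this
    exact Fin.ext this
  have h4 : Fintype.card (Fin n → Fin (m + t)) = (m + t) ^ n := by simp
  rw [h4] at h1
  have h5 : Fintype.card {w : Fin n → Fin (m + t) // ∃ j, m ≤ (w j : ℕ)} ≤ (m + t) ^ n := by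
    rw [← h4]
    exact Fintype.card_subtype_le _
  omega

/-- One ball of capacity at most `a` and `(m+t)^n - m^n` balls of capacity at most `b`. -/
theorem pack_one_big {n k m t : ℕ} {R a b : ℝ} (r : Fin k → ℝ) (i₀ : Fin k) (hn : 1 ≤ n)
    (ht : 1 ≤ t) (ha : 0 < a) (hb : 0 < b) (hr : ∀ i, 0 < r i) (h0 : r i₀ ≤ a)
    (h1 : ∀ i, i ≠ i₀ → r i ≤ b) (hm : m * b ≤ a) (hR : a + t * b < R)
    (hk : k + m ^ n ≤ 1 + (m + t) ^ n) : BallsPack n k R r := by
  classical
  have htb : 0 < a + t * b := by positivity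
  obtain ⟨η, hη1, hηR⟩ : ∃ η : ℝ, 1 < η ∧ η * (a + t * b) < R := by
    have h : (1 : ℝ) < R / (a + t * b) := by rwa [one_lt_div htb]
    obtain ⟨η, h1, h2⟩ := exists_between h
    exact ⟨η, h1, by rwa [lt_div_iff₀ htb] at h2⟩
  set a' := η * a with ha'
  set b' := η * b with hb'
  have hη0 : 0 < η := by linarith
  have hb'pos : 0 < b' := by positivity
  have ha'pos : 0 < a' := by positivity
  have hab' : m * b' ≤ a' := by
    rw [ha', hb']
    nlinarith
  have hR' : a' + t * b' < R := by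
    rw [ha', hb']
    nlinarith
  set o : ℕ → ℝ := off m a' b' with ho_def
  have ho : ∀ c c' : ℕ, c < c' → o c + b' ≤ o c' := fun c c' h => off_gap hb'pos hab' h
  have ho0 : ∀ c, 0 ≤ o c := fun c => off_nonneg hb'pos ha'pos.le c
  -- injection into words
  have hcard : Fintype.card {i : Fin k // i ≠ i₀}
      ≤ Fintype.card {w : Fin n → Fin (m + t) // ∃ j, m ≤ (w j : ℕ)} := by
    have h1 : Fintype.card {i : Fin k // i ≠ i₀} = k - 1 := by
      rw [Fintype.card_subtype_compl]
      simp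
    have h2 := card_words n m t
    rw [h1]
    omega
  obtain ⟨f⟩ := Function.Embedding.nonempty_of_card_le hcard
  let W : Fin k → (Fin n → Fin (m + t)) := fun i => if h : i = i₀ then (fun _ => ⟨0, by omega⟩) else (f ⟨i, h⟩).1
  have hW : ∀ i, i ≠ i₀ → ∃ j, m ≤ (W i j : ℕ) := by
    intro i hi
    simp only [W, hi, dite_false]
    exact (f ⟨i, hi⟩).2
  have hWinj : ∀ i j, i ≠ i₀ → j ≠ i₀ → i ≠ j → W i ≠ W j := by
    intro i j hi hj hij h
    simp only [W, hi, hj, dite_false] at h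
    have := f.injective (Subtype.ext h)
    exact hij (congrArg Subtype.val this)
  refine pack_of_toric (s := fun i => if i = i₀ then a' else b')
    (fun i => if i = i₀ then 1 else Am (Tuple.sort (W i)))
    (fun i => if i = i₀ then 1 else Bm (Tuple.sort (W i)))
    ?_ (fun i => if i = i₀ then 0 else cvec (fun l => o (W i (Tuple.sort (W i) l)))) hr ?_
    (fun i => if i = i₀ then {y | (∀ j, 0 < y j) ∧ ∑ j, y j < a'} else region o b' (W i)) ?_ ?_ ?_
  · intro i
    by_cases hi : i = i₀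
    · simp [hi]
    · simp only [hi, if_false]
      exact Am_Bm _
  · intro i
    by_cases hi : i = i₀
    · simp only [hi, if_true]
      rw [ha']
      nlinarith
    · simp only [hi, if_false]
      have := h1 i hi
      rw [hb']
      nlinarith
  · intro i x hx hx'
    by_cases hi : i = i₀
    · simp only [hi, if_true] at hx' ⊢
      have : (fun l => (∑ j, (((1 : Matrix (Fin n) (Fin n) ℤ) l j : ℤ) : ℝ) * x j)
          + (0 : Fin n → ℝ) l) = x := by
        funext l
        simp [Matrix.one_apply]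
      rw [this]
      exact ⟨hx, hx'⟩
    · simp only [hi, if_false] at hx' ⊢
      exact ⟨x, hx, hx', rfl⟩
  · intro i y hy
    by_cases hi : i = i₀
    · simp only [hi, if_true] at hy
      refine ⟨hy.1, hy.2.trans ?_⟩
      have : 0 ≤ t * b' := by positivity
      linarith
    · simp only [hi, if_false] at hy
      refine ⟨region_pos ho ho0 hy, ?_⟩
      refine (region_sum_lt (R := a' + t * b') (by omega) ?_ hy).trans hR'
      intro c
      exact off_le hb'pos hab' c.2 ht
  · intro i j hij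
    by_cases hi : i = i₀
    · have hj : j ≠ i₀ := fun h => hij (hi.trans h.symm)
      simp only [hi, hj, if_true, if_false]
      rw [Set.disjoint_left]
      intro y hy hy'
      obtain ⟨j₀, hj₀⟩ := hW j hj
      have := region_sum_gt (by omega) ho (off_ge (a := a') (b := b') hb'pos hj₀) hy'
      have := hy.2
      linarith
    · by_cases hj : j = i₀
      · simp only [hi, hj, if_true, if_false]
        rw [Set.disjoint_left]
        intro y hy' hy
        obtain ⟨j₀, hj₀⟩ := hW i hi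
        have := region_sum_gt (by omega) ho (off_ge (a := a') (b := b') hb'pos hj₀) hy'
        have := hy.2
        linarith
      · simp only [hi, hj, if_false]
        exact region_disjoint ho (hWinj i j hi hj hij)

/-- For at most `2^n` balls the two-ball condition suffices. -/
theorem pack_two_pow {n k : ℕ} {R : ℝ} (r : Fin k → ℝ) (hn : 1 ≤ n) (hk : k ≤ 2 ^ n)
    (hr : ∀ i, 0 < r i) (hvol : ∑ i, r i ^ n < R ^ n) (hR : 0 < R)
    (hpair : ∀ i j, i ≠ j → r i + r j < R) : BallsPack n k R r := by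
  classical
  rcases Nat.eq_zero_or_pos k with hk0 | hk0
  · subst hk0
    exact ⟨fun i => i.elim0, fun i => i.elim0, fun i => i.elim0, fun i => i.elim0⟩
  have : Nonempty (Fin k) := ⟨⟨0, hk0⟩⟩
  obtain ⟨i₀, hi₀⟩ := Finite.exists_max r
  have hi₀R : r i₀ < R := by
    have h1 : r i₀ ^ n ≤ ∑ i, r i ^ n :=
      Finset.single_le_sum (f := fun i => r i ^ n) (fun i _ => (pow_pos (hr i) n).le) (Finset.mem_univ i₀)
    exact lt_of_pow_lt_pow_left₀ n hR.le (h1.trans_lt hvol)
  -- b = sup of the others, or small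
  obtain ⟨b, hb, hb1, hb2, hb3⟩ : ∃ b : ℝ, 0 < b ∧ (∀ i, i ≠ i₀ → r i ≤ b) ∧ b ≤ r i₀ ∧ r i₀ + b < R := by
    by_cases h : ∃ i, i ≠ i₀
    · have : Nonempty {i : Fin k // i ≠ i₀} := by
        obtain ⟨i, hi⟩ := h
        exact ⟨⟨i, hi⟩⟩
      obtain ⟨i₁, hi₁⟩ := Finite.exists_max (fun i : {i : Fin k // i ≠ i₀} => r i)
      refine ⟨r i₁, hr _, fun i hi => hi₁ ⟨i, hi⟩, hi₀ _, ?_⟩
      exact hpair i₀ i₁ (Ne.symm i₁.2)
    · push Not at h
      obtain ⟨b, hb1, hb2⟩ := exists_between (lt_min (hr i₀) (sub_pos.2 hi₀R))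
      refine ⟨b, hb1, fun i hi => absurd (h i) hi, ?_, ?_⟩
      · exact hb2.le.trans (min_le_left _ _)
      · have := hb2.trans_le (min_le_right _ _)
        linarith
  refine pack_one_big (m := 1) (t := 1) r i₀ hn le_rfl (hr i₀) hb hr le_rfl hb1 (by simpa using hb2) (by simpa using hb3) ?_
  have : (1 + 1 : ℕ) ^ n = 2 ^ n := by norm_num
  rw [this]
  simp
  omega

end Vale.Agent.Lib.P209
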