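import Mathlib
import Vale.Agent.Lib.P209.Defs
import Vale.Agent.Lib.P209.Words

open scoped ContDiff Topology

noncomputable section

namespace Vale.Agent.Lib.P209

/-- open standard simplex of size `s` -/
def osimp (n : ℕ) (s : ℝ) : Set (Fin n → ℝ) := {x | (∀ j, 0 < x j) ∧ ∑ j, x j < s}

def aff {n : ℕ} (A : Matrix (Fin n) (Fin n) ℤ) (c : Fin n → ℝ) (x : Fin n → ℝ) : Fin n → ℝ :=
  fun i => (∑ j, (A i j : ℝ) * x j) + c i

lemma aff_comp {n : ℕ} (A A' : Matrix (Fin n) (Fin n) ℤ) (c c' : Fin n → ℝ) (x : Fin n → ℝ) :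
    aff (A * A') (aff A c c') x = aff A c (aff A' c' x) := by
  funext i
  unfold aff
  simp only [Matrix.mul_apply]
  push_cast
  simp only [mul_add, Finset.sum_add_distrib, Finset.sum_mul, Finset.mul_sum]
  rw [Finset.sum_comm]
  have : ∀ j k, (A i j : ℝ) * (A' j k : ℝ) * x k = (A i j : ℝ) * ((A' j k : ℝ) * x k) := by
    intro j k; ring
  simp only [this]
  ring

lemma aff_injective {n : ℕ} {A B : Matrix (Fin n) (Fin n) ℤ} (hAB : A.transpose * B = 1)
    (c : Fin n → ℝ) : Function.Injective (aff A c) := by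
  intro x y h
  have hBA : B.transpose * A = 1 := by
    have := congrArg Matrix.transpose hAB
    simpa [Matrix.transpose_mul] using this
  funext j
  rw [← key_inv hBA x j, ← key_inv hBA y j]
  apply Finset.sum_congr rfl
  intro i _
  have h1 := congrFun h i
  unfold aff at h1
  have h4 : ∑ j, (A i j : ℝ) * x j = ∑ j, (A i j : ℝ) * y j := by linarith
  rw [h4]

lemma aff_one {n : ℕ} (x : Fin n → ℝ) : aff (1 : Matrix (Fin n) (Fin n) ℤ) 0 x = x := by
  funext l
  simp [aff, Matrix.one_apply]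

/-- The family of simplices of sizes `ρ` packs into the disjoint union of the simplices of
sizes `σ`, by integral affine maps. -/
def MPack (n : ℕ) {κ ι : Type} (σ : κ → ℝ) (ρ : ι → ℝ) : Prop :=
  ∃ (f : ι → κ) (A B : ι → Matrix (Fin n) (Fin n) ℤ) (c : ι → Fin n → ℝ),
    (∀ i, (A i).transpose * B i = 1) ∧
    (∀ i, ∀ x ∈ osimp n (ρ i), aff (A i) (c i) x ∈ osimp n (σ (f i))) ∧
    (∀ i j, i ≠ j → f i = f j → ∀ x ∈ osimp n (ρ i), ∀ y ∈ osimp n (ρ j),
      aff (A i) (c i) x ≠ aff (A j) (c j) y)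

lemma MPack.trans {n : ℕ} {κ ι μ : Type} {σ : κ → ℝ} {τ : ι → ℝ} {ρ : μ → ℝ}
    (h1 : MPack n σ τ) (h2 : MPack n τ ρ) : MPack n σ ρ := by
  obtain ⟨f, A, B, c, hAB, hin, hd⟩ := h1
  obtain ⟨f', A', B', c', hAB', hin', hd'⟩ := h2
  refine ⟨fun i => f (f' i), fun i => A (f' i) * A' i, fun i => B (f' i) * B' i,
    fun i => aff (A (f' i)) (c (f' i)) (c' i), ?_, ?_, ?_⟩
  · intro i
    rw [Matrix.transpose_mul, Matrix.mul_assoc, ← Matrix.mul_assoc (A (f' i)).transpose, hAB,
      Matrix.one_mul, hAB']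
  · intro i x hx
    rw [aff_comp]
    exact hin _ _ (hin' i x hx)
  · intro i j hij hf x hx y hy
    rw [aff_comp, aff_comp]
    by_cases h : f' i = f' j
    · intro he
      rw [h] at he
      exact hd' i j hij h x hx y hy (aff_injective (hAB (f' j)) (c (f' j)) he)
    · exact hd (f' i) (f' j) h hf _ (hin' i x hx) _ (hin' j y hy)

lemma osimp_mono {n : ℕ} {s t : ℝ} (h : s ≤ t) : osimp n s ⊆ osimp n t :=
  fun _ hx => ⟨hx.1, hx.2.trans_le h⟩

lemma MPack.of_inj {n : ℕ} {κ ι : Type} {σ : κ → ℝ} {ρ : ι → ℝ} (e : ι → κ)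
    (he : Function.Injective e) (h : ∀ i, ρ i ≤ σ (e i)) : MPack n σ ρ := by
  refine ⟨e, fun _ => 1, fun _ => 1, fun _ => 0, fun i => by simp, ?_, ?_⟩
  · intro i x hx
    rw [aff_one]
    exact osimp_mono (h i) hx
  · intro i j hij hf
    exact absurd (he hf) hij

lemma MPack.sum {n : ℕ} {κ ι κ' ι' : Type} {σ : κ → ℝ} {ρ : ι → ℝ} {σ' : κ' → ℝ} {ρ' : ι' → ℝ}
    (h : MPack n σ ρ) (h' : MPack n σ' ρ') : MPack n (Sum.elim σ σ') (Sum.elim ρ ρ') := by
  obtain ⟨f, A, B, c, hAB, hin, hd⟩ := h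
  obtain ⟨f', A', B', c', hAB', hin', hd'⟩ := h'
  refine ⟨Sum.map f f', Sum.elim A A', Sum.elim B B', Sum.elim c c', ?_, ?_, ?_⟩
  · rintro (i | i)
    · exact hAB i
    · exact hAB' i
  · rintro (i | i) x hx
    · exact hin i x hx
    · exact hin' i x hx
  · rintro (i | i) (j | j) hij hf x hx y hy
    · exact hd i j (fun h => hij (by rw [h])) (by simpa using hf) x hx y hy
    · simp at hf
    · simp at hf
    · exact hd' i j (fun h => hij (by rw [h])) (by simpa using hf) x hx y hy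

lemma MPack.sigma {n : ℕ} {J : Type} {κ ι : J → Type} {σ : ∀ j, κ j → ℝ} {ρ : ∀ j, ι j → ℝ}
    (h : ∀ j, MPack n (σ j) (ρ j)) :
    MPack n (fun x : (Σ j, κ j) => σ x.1 x.2) (fun x : (Σ j, ι j) => ρ x.1 x.2) := by
  choose f A B c hAB hin hd using h
  refine ⟨fun x => ⟨x.1, f x.1 x.2⟩, fun x => A x.1 x.2, fun x => B x.1 x.2, fun x => c x.1 x.2,
    fun x => hAB _ _, fun x y hy => hin _ _ y hy, ?_⟩
  rintro ⟨j, i⟩ ⟨j', i'⟩ hij hf x hx y hy
  simp only [Sigma.mk.injEq] at hf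
  obtain ⟨rfl, hf⟩ := hf
  have hii : i ≠ i' := fun h => hij (by rw [h])
  exact hd j i i' hii (by simpa using hf) x hx y hy

/-- From a packing into a single simplex to a ball packing. -/
lemma MPack.toBalls {n k : ℕ} {R : ℝ} {ρ : Fin k → ℝ} (h : MPack n (fun _ : Unit => R) ρ)
    {r : Fin k → ℝ} (hr : ∀ i, 0 < r i) (hrρ : ∀ i, r i < ρ i) : BallsPack n k R r := by
  obtain ⟨f, A, B, c, hAB, hin, hd⟩ := h
  refine pack_of_toric A B hAB c hr hrρ (fun i => aff (A i) (c i) '' osimp n (ρ i)) ?_ ?_ ?_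
  · intro i x hx hx'
    exact ⟨x, ⟨hx, hx'⟩, rfl⟩
  · rintro i _ ⟨x, hx, rfl⟩
    exact hin i x hx
  · intro i j hij
    rw [Set.disjoint_left]
    rintro _ ⟨x, hx, rfl⟩ ⟨y, hy, hxy⟩
    exact hd i j hij (by simp [eq_iff_true_of_subsingleton]) x hx y hy hxy.symm

/-- pieces attached to words -/
lemma mem_region_iff {n N : ℕ} {o : ℕ → ℝ} {b : ℝ} {w : Fin n → Fin N} {x : Fin n → ℝ}
    (hx : x ∈ osimp n b) :
    aff (Am (Tuple.sort w)) (cvec (fun l => o (w (Tuple.sort w l)))) x ∈ region o b w :=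
  ⟨x, hx.1, hx.2, rfl⟩

/-- The one-big-simplex lemma in packing form. -/
lemma MPack.oneBig {n m t : ℕ} (hn : 1 ≤ n) {a b : ℝ} (ha : 0 ≤ a) (hb : 0 < b)
    (hm : m * b ≤ a) (N : ℕ) (hN : N + m ^ n ≤ (m + t) ^ n) :
    MPack n (fun _ : Unit => a + t * b)
      (Sum.elim (fun _ : Unit => a) (fun _ : Fin N => b)) := by
  classical
  have hcard : Fintype.card (Fin N)
      ≤ Fintype.card {w : Fin n → Fin (m + t) // ∃ j, m ≤ (w j : ℕ)} := by
    have h2 := card_words n m t
    simp only [Fintype.card_fin]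
    omega
  obtain ⟨e⟩ := Function.Embedding.nonempty_of_card_le hcard
  set o : ℕ → ℝ := off m a b with ho_def
  have ho : ∀ c c' : ℕ, c < c' → o c + b ≤ o c' := fun c c' h => off_gap hb hm h
  have ho0 : ∀ c, 0 ≤ o c := fun c => off_nonneg hb ha c
  have hoR : ∀ c : Fin (m + t), o c + b ≤ a + t * b := by
    intro c
    rcases Nat.eq_zero_or_pos t with ht | ht
    · subst ht
      have hc : (c : ℕ) < m := by simpa using c.2
      have h3 : ((c : ℕ) : ℝ) + 1 ≤ m := by exact_mod_cast hc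
      have : o c = (c : ℕ) * b := by
        rw [ho_def]; unfold off; simp [hc]
      rw [this]
      simp
      nlinarith
    · exact off_le hb hm c.2 ht
  refine ⟨fun _ => (), Sum.elim (fun _ => 1) (fun i => Am (Tuple.sort (e i).1)),
    Sum.elim (fun _ => 1) (fun i => Bm (Tuple.sort (e i).1)),
    Sum.elim (fun _ => 0) (fun i => cvec (fun l => o ((e i).1 (Tuple.sort (e i).1 l)))), ?_, ?_, ?_⟩
  · rintro (i | i)
    · simp
    · exact Am_Bm _
  · rintro (i | i) x hx
    · simp only [Sum.elim_inl, aff_one] at hx ⊢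
      refine osimp_mono ?_ hx
      have : 0 ≤ (t : ℝ) * b := by positivity
      linarith
    · have hx' := mem_region_iff (o := o) (w := (e i).1) hx
      exact ⟨region_pos ho ho0 hx', region_sum_lt (by omega) hoR hx'⟩
  · rintro (i | i) (j | j) hij hf x hx y hy
    · exact absurd (by simp [eq_iff_true_of_subsingleton]) hij
    · simp only [Sum.elim_inl, Sum.elim_inr, aff_one] at hx hy ⊢
      have hy' := mem_region_iff (o := o) (w := (e j).1) hy
      obtain ⟨j₀, hj₀⟩ := (e j).2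
      have := region_sum_gt (by omega) ho (off_ge (a := a) (b := b) hb hj₀) hy'
      intro h
      rw [← h] at this
      have := hx.2
      linarith
    · simp only [Sum.elim_inl, Sum.elim_inr, aff_one] at hx hy ⊢
      have hx' := mem_region_iff (o := o) (w := (e i).1) hx
      obtain ⟨j₀, hj₀⟩ := (e i).2
      have := region_sum_gt (by omega) ho (off_ge (a := a) (b := b) hb hj₀) hx'
      intro h
      rw [h] at this
      have := hy.2
      linarith
    · simp only [Sum.elim_inr] at hx hy ⊢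
      have hx' := mem_region_iff (o := o) (w := (e i).1) hx
      have hy' := mem_region_iff (o := o) (w := (e j).1) hy
      intro h
      rw [h] at hx'
      have hne : (e i).1 ≠ (e j).1 := fun h => hij (by rw [e.injective (Subtype.ext h)])
      exact Set.disjoint_left.1 (region_disjoint ho hne) hx' hy'

/-- Subdivision of a simplex of size `s` into `q ^ n` simplices of size `s / q`. -/
lemma MPack.subdiv {n q : ℕ} (hn : 1 ≤ n) (hq : 1 ≤ q) {s : ℝ} (hs : 0 < s) :
    MPack n (fun _ : Unit => s) (fun _ : Fin (q ^ n) => s / q) := by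
  have hq' : (0 : ℝ) < q := by exact_mod_cast hq
  have h := MPack.oneBig (n := n) (m := 0) (t := q) hn (a := 0) (b := s / q) le_rfl
    (by positivity) (by simp) (q ^ n) (by
      have : (0 : ℕ) ^ n = 0 := by
        rw [zero_pow (by omega)]
      simp [this])
  have e : (0 : ℝ) + q * (s / q) = s := by field_simp; ring
  rw [e] at h
  exact h.trans (MPack.of_inj Sum.inr Sum.inr_injective (fun i => le_rfl))

/-- Subdivision of each member of a constant family. -/
lemma MPack.subdivFam {n q : ℕ} (hn : 1 ≤ n) (hq : 1 ≤ q) {s : ℝ} (hs : 0 < s) (κ : Type) :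
    MPack n (fun _ : κ => s) (fun _ : κ × Fin (q ^ n) => s / q) := by
  have h := MPack.sigma (n := n) (J := κ) (κ := fun _ => Unit) (ι := fun _ => Fin (q ^ n))
    (σ := fun _ _ => s) (ρ := fun _ _ => s / q) (fun _ => MPack.subdiv hn hq hs)
  refine (MPack.of_inj (σ := fun _ : κ => s) (ρ := fun _ : (Σ _ : κ, Unit) => s)
    (fun x => x.1) ?_ (fun i => le_rfl)).trans (h.trans (MPack.of_inj (fun x => ⟨x.1, x.2⟩) ?_ (fun i => le_rfl)))
  · rintro ⟨a, _⟩ ⟨b, _⟩ h
    simp at h
    simp [h]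
  · rintro ⟨a, b⟩ ⟨c, d⟩ h
    simp at h
    simp [h.1, h.2]

end Vale.Agent.Lib.P209
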