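import Mathlib
import Vale.Agent.Lib.P209.Defs
import Vale.Agent.Lib.P209.MPack

open scoped ContDiff Topology

noncomputable section

namespace Vale.Agent.Lib.P209

lemma card_good_words (n p q : ℕ) (hqp : q ≤ p) :
    (p + q) ^ n + q ^ n ≤
      Fintype.card {v : Fin n → Fin (p + q) // (∃ j, p ≤ (v j : ℕ)) ∧ ∃ j, q ≤ (v j : ℕ) ∧ (v j : ℕ) < p}
        + (p ^ n + (2 * q) ^ n) := by
  classical
  set X : Finset (Fin n → Fin (p + q)) :=
    Fintype.piFinset (fun _ => Finset.univ.filter (fun c : Fin (p + q) => (c : ℕ) < p)) with hX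
  set Y : Finset (Fin n → Fin (p + q)) :=
    Fintype.piFinset (fun _ => Finset.univ.filter (fun c : Fin (p + q) => (c : ℕ) < q ∨ p ≤ (c : ℕ))) with hY
  have hXc : X.card = p ^ n := by
    rw [hX, Fintype.card_piFinset]
    have : (Finset.univ.filter (fun c : Fin (p + q) => (c : ℕ) < p)).card = p := by
      have e : (Finset.univ.filter (fun c : Fin (p + q) => (c : ℕ) < p))
          = (Finset.univ : Finset (Fin p)).map (Fin.castAddEmb q) := by
        ext c
        simp only [Finset.mem_filter, Finset.mem_univ, true_and, Finset.mem_map, Fin.castAddEmb_apply]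
        constructor
        · intro h
          exact ⟨⟨c, h⟩, Fin.ext rfl⟩
        · rintro ⟨a, rfl⟩
          simp
      rw [e]
      simp
    simp [this]
  have hYle : Y.card ≤ (2 * q) ^ n := by
    rw [hY, Fintype.card_piFinset]
    have : (Finset.univ.filter (fun c : Fin (p + q) => (c : ℕ) < q ∨ p ≤ (c : ℕ))).card ≤ 2 * q := by
      have e : (Finset.univ.filter (fun c : Fin (p + q) => (c : ℕ) < q ∨ p ≤ (c : ℕ))).card
          ≤ (Finset.range (2 * q)).card := by
        apply Finset.card_le_card_of_injOn
          (fun c : Fin (p + q) => if (c : ℕ) < q then (c : ℕ) else (c : ℕ) - p + q)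
        · intro c hc
          simp only [Finset.coe_filter, Finset.mem_univ, true_and, Set.mem_setOf_eq] at hc
          simp only [Finset.coe_range, Set.mem_Iio]
          have := c.2
          split_ifs <;> omega
        · intro c hc d hd h
          simp only [Finset.coe_filter, Finset.mem_univ, true_and, Set.mem_setOf_eq] at hc hd
          simp only at h
          apply Fin.ext
          split_ifs at h <;> omega
      simpa using e
    simp only [Finset.prod_const, Finset.card_univ, Fintype.card_fin]
    exact Nat.pow_le_pow_left this n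
  have hint : q ^ n ≤ (X ∩ Y).card := by
    have e : (Fintype.piFinset (fun _ : Fin n => Finset.univ.filter (fun c : Fin (p + q) => (c : ℕ) < q))) ⊆ X ∩ Y := by
      intro v hv
      simp only [Fintype.mem_piFinset, Finset.mem_filter, Finset.mem_univ, true_and] at hv
      simp only [hX, hY, Finset.mem_inter, Fintype.mem_piFinset, Finset.mem_filter, Finset.mem_univ, true_and]
      exact ⟨fun j => (hv j).trans_le hqp, fun j => Or.inl (hv j)⟩
    refine le_trans ?_ (Finset.card_le_card e)
    rw [Fintype.card_piFinset]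
    have : q ≤ (Finset.univ.filter (fun c : Fin (p + q) => (c : ℕ) < q)).card := by
      have : (Finset.univ : Finset (Fin q)).card ≤ (Finset.univ.filter (fun c : Fin (p + q) => (c : ℕ) < q)).card := by
        apply Finset.card_le_card_of_injOn (fun c : Fin q => (⟨c, by have := c.2; omega⟩ : Fin (p + q)))
        · intro c _
          simp
        · intro c _ d _ h
          simp only [Fin.mk.injEq] at h
          exact Fin.ext h
      simpa using this
    simp only [Finset.prod_const, Finset.card_univ, Fintype.card_fin]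
    exact Nat.pow_le_pow_left this n
  have hunion := Finset.card_union_add_card_inter X Y
  have hgood : (Finset.univ.filter (fun v : Fin n → Fin (p + q) => (∃ j, p ≤ (v j : ℕ)) ∧ ∃ j, q ≤ (v j : ℕ) ∧ (v j : ℕ) < p))
      = (X ∪ Y)ᶜ := by
    ext v
    simp only [Finset.mem_filter, Finset.mem_univ, true_and, Finset.mem_compl, Finset.mem_union, hX, hY,
      Fintype.mem_piFinset, not_or, not_forall, not_lt, not_le]
  have hcard : Fintype.card {v : Fin n → Fin (p + q) // (∃ j, p ≤ (v j : ℕ)) ∧ ∃ j, q ≤ (v j : ℕ) ∧ (v j : ℕ) < p}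
      = (X ∪ Y)ᶜ.card := by
    rw [Fintype.card_subtype, hgood]
  have hcompl := Finset.card_compl_add_card (X ∪ Y)
  have htot : Fintype.card (Fin n → Fin (p + q)) = (p + q) ^ n := by simp
  rw [hcard]
  omega

/-- core decomposition: one simplex of size `a`, `2 ^ n - 1` simplices of size `q δ`, and the
remaining shell filled by simplices of size `δ`. -/
lemma MPack.core {n p q : ℕ} (hn : 1 ≤ n) {a δ : ℝ} (hδ : 0 < δ) (hq : 1 ≤ q) (hqp : q ≤ p)
    (hpa : p * δ ≤ a) (N : ℕ) (hN : N + (p ^ n + (2 * q) ^ n) ≤ (p + q) ^ n + q ^ n) (W : Type)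
    [Fintype W] (hW : Fintype.card W + 1 ≤ 2 ^ n) :
    MPack n (fun _ : Unit => a + q * δ)
      (Sum.elim (fun _ : Unit => a) (Sum.elim (fun _ : W => q * δ) (fun _ : Fin N => δ))) := by
  classical
  have hp0 : 0 < p := by omega
  have hqδ : 0 < (q : ℝ) * δ := by
    have : (0 : ℝ) < q := by exact_mod_cast hq
    positivity
  have hqpR : (q : ℝ) ≤ p := by exact_mod_cast hqp
  have hqa : (q : ℝ) * δ ≤ a := le_trans (mul_le_mul_of_nonneg_right hqpR hδ.le) hpa
  have ha : 0 < a := hqδ.trans_le hqa
  -- words for the big pieces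
  have hcardW : Fintype.card W ≤ Fintype.card {w : Fin n → Fin (1 + 1) // ∃ j, 1 ≤ (w j : ℕ)} := by
    have h2 := card_words n 1 1
    simp only [one_pow] at h2
    have : (1 + 1 : ℕ) ^ n = 2 ^ n := by norm_num
    omega
  obtain ⟨e⟩ := Function.Embedding.nonempty_of_card_le hcardW
  have hcardN : Fintype.card (Fin N) ≤ Fintype.card {v : Fin n → Fin (p + q) // (∃ j, p ≤ (v j : ℕ)) ∧ ∃ j, q ≤ (v j : ℕ) ∧ (v j : ℕ) < p} := by
    have := card_good_words n p q hqp
    simp only [Fintype.card_fin]
    omega
  obtain ⟨g⟩ := Function.Embedding.nonempty_of_card_le hcardN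
  set T : ℝ := q * δ with hT
  set o : ℕ → ℝ := off p a δ with ho_def
  set O : ℕ → ℝ := off 1 a T with hO_def
  have ho : ∀ c c' : ℕ, c < c' → o c + δ ≤ o c' := fun c c' h => off_gap hδ hpa h
  have hO : ∀ c c' : ℕ, c < c' → O c + T ≤ O c' := fun c c' h => off_gap hqδ (by simpa using hqa) h
  have ho0 : ∀ c, 0 ≤ o c := fun c => off_nonneg hδ ha.le c
  have hO0 : ∀ c, 0 ≤ O c := fun c => off_nonneg hqδ ha.le c
  have hoR : ∀ c : Fin (p + q), o c + δ ≤ a + T := fun c => off_le hδ hpa c.2 hq
  have hOR : ∀ c : Fin (1 + 1), O c + T ≤ a + T := by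
    intro c
    have := off_le (m := 1) (t := 1) (a := a) hqδ (by simpa using hqa) c.2 le_rfl
    simpa using this
  -- values of O
  have hOval : ∀ c : Fin (1 + 1), O c = 0 ∨ O c = a := by
    intro c
    rw [hO_def]
    unfold off
    have hc := c.2
    by_cases h : (c : ℕ) < 1
    · left
      have h0 : (c : ℕ) = 0 := by omega
      simp [h0]
    · right
      have h0 : (c : ℕ) = 1 := by omega
      simp [h0]
  -- the key disjointness
  have hkey : ∀ (w : Fin n → Fin (1 + 1)) (v : Fin n → Fin (p + q)),
      (∃ j, q ≤ (v j : ℕ) ∧ (v j : ℕ) < p) → ∀ y, y ∈ region O T w → y ∈ region o δ v → False := by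
    rintro w v ⟨j, hj1, hj2⟩ y hy hy'
    obtain ⟨x, hx, hxb, h⟩ := region_psum hy
    obtain ⟨x', hx', hxb', h'⟩ := region_psum hy'
    obtain ⟨i, rfl⟩ := (Tuple.sort v).surjective j
    have e1 := h i
    have e2 := h' i
    rw [e2] at e1
    unfold wsum at e1
    have b1 := psum_pos hx (Tuple.sort w i)
    have b2 := (psum_le_sum hx (Tuple.sort w i)).trans_lt hxb
    have b3 := psum_pos hx' (Tuple.sort v i)
    have b4 := (psum_le_sum hx' (Tuple.sort v i)).trans_lt hxb'
    have hov : o (v (Tuple.sort v i)) = (v (Tuple.sort v i) : ℕ) * δ := by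
      rw [ho_def]; unfold off; simp [hj2]
    rw [hov] at e1
    have c1 : (q : ℝ) * δ ≤ (v (Tuple.sort v i) : ℕ) * δ := by
      apply mul_le_mul_of_nonneg_right _ hδ.le
      exact_mod_cast hj1
    have c2 : ((v (Tuple.sort v i) : ℕ) : ℝ) * δ + δ ≤ p * δ := by
      have : ((v (Tuple.sort v i) : ℕ) : ℝ) + 1 ≤ p := by exact_mod_cast hj2
      nlinarith
    rcases hOval (w (Tuple.sort w i)) with h0 | h0
    · rw [h0] at e1
      linarith
    · rw [h0] at e1
      linarith
  refine ⟨fun _ => (),
    Sum.elim (fun _ => 1) (Sum.elim (fun i => Am (Tuple.sort (e i).1)) (fun i => Am (Tuple.sort (g i).1))),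
    Sum.elim (fun _ => 1) (Sum.elim (fun i => Bm (Tuple.sort (e i).1)) (fun i => Bm (Tuple.sort (g i).1))),
    Sum.elim (fun _ => 0) (Sum.elim (fun i => cvec (fun l => O ((e i).1 (Tuple.sort (e i).1 l))))
      (fun i => cvec (fun l => o ((g i).1 (Tuple.sort (g i).1 l))))), ?_, ?_, ?_⟩
  · rintro (i | i | i)
    · simp
    · exact Am_Bm _
    · exact Am_Bm _
  · rintro (i | i | i) x hx
    · simp only [Sum.elim_inl, aff_one] at hx ⊢
      refine osimp_mono ?_ hx
      linarith
    · have hx' := mem_region_iff (o := O) (w := (e i).1) hx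
      exact ⟨region_pos hO hO0 hx', region_sum_lt (by omega) hOR hx'⟩
    · have hx' := mem_region_iff (o := o) (w := (g i).1) hx
      exact ⟨region_pos ho ho0 hx', region_sum_lt (by omega) hoR hx'⟩
  · rintro (i | i | i) (j | j | j) hij hf x hx y hy
    · exact absurd (congrArg Sum.inl (Subsingleton.elim i j)) hij
    · simp only [Sum.elim_inl, Sum.elim_inr, aff_one] at hx hy ⊢
      have hy' := mem_region_iff (o := O) (w := (e j).1) hy
      obtain ⟨j₀, hj₀⟩ := (e j).2
      have := region_sum_gt (by omega) hO (off_ge (a := a) (b := T) hqδ hj₀) hy'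
      intro h
      rw [← h] at this
      have := hx.2
      linarith
    · simp only [Sum.elim_inl, Sum.elim_inr, aff_one] at hx hy ⊢
      have hy' := mem_region_iff (o := o) (w := (g j).1) hy
      obtain ⟨j₀, hj₀⟩ := (g j).2.1
      have := region_sum_gt (by omega) ho (off_ge (a := a) (b := δ) hδ hj₀) hy'
      intro h
      rw [← h] at this
      have := hx.2
      linarith
    · simp only [Sum.elim_inl, Sum.elim_inr, aff_one] at hx hy ⊢
      have hx' := mem_region_iff (o := O) (w := (e i).1) hx
      obtain ⟨j₀, hj₀⟩ := (e i).2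
      have := region_sum_gt (by omega) hO (off_ge (a := a) (b := T) hqδ hj₀) hx'
      intro h
      rw [h] at this
      have := hy.2
      linarith
    · simp only [Sum.elim_inl, Sum.elim_inr] at hx hy ⊢
      have hx' := mem_region_iff (o := O) (w := (e i).1) hx
      have hy' := mem_region_iff (o := O) (w := (e j).1) hy
      intro h
      rw [h] at hx'
      have hne : (e i).1 ≠ (e j).1 := fun h => hij (by rw [e.injective (Subtype.ext h)])
      exact Set.disjoint_left.1 (region_disjoint hO hne) hx' hy'
    · simp only [Sum.elim_inl, Sum.elim_inr] at hx hy ⊢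
      have hx' := mem_region_iff (o := O) (w := (e i).1) hx
      have hy' := mem_region_iff (o := o) (w := (g j).1) hy
      intro h
      rw [h] at hx'
      exact hkey _ _ (g j).2.2 _ hx' hy'
    · simp only [Sum.elim_inl, Sum.elim_inr, aff_one] at hx hy ⊢
      have hx' := mem_region_iff (o := o) (w := (g i).1) hx
      obtain ⟨j₀, hj₀⟩ := (g i).2.1
      have := region_sum_gt (by omega) ho (off_ge (a := a) (b := δ) hδ hj₀) hx'
      intro h
      rw [h] at this
      have := hy.2
      linarith
    · simp only [Sum.elim_inl, Sum.elim_inr] at hx hy ⊢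
      have hx' := mem_region_iff (o := o) (w := (g i).1) hx
      have hy' := mem_region_iff (o := O) (w := (e j).1) hy
      intro h
      rw [h] at hx'
      exact hkey _ _ (g i).2.2 _ hy' hx'
    · simp only [Sum.elim_inl, Sum.elim_inr] at hx hy ⊢
      have hx' := mem_region_iff (o := o) (w := (g i).1) hx
      have hy' := mem_region_iff (o := o) (w := (g j).1) hy
      intro h
      rw [h] at hx'
      have hne : (g i).1 ≠ (g j).1 := fun h => hij (by rw [g.injective (Subtype.ext h)])
      exact Set.disjoint_left.1 (region_disjoint ho hne) hx' hy'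

end Vale.Agent.Lib.P209
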