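import Mathlib
import Vale.Agent.Lib.P209.Defs
import Vale.Agent.Lib.P209.MPack

open scoped ContDiff Topology

noncomputable section

namespace Vale.Agent.Lib.P209

/-- One scale of the filling. -/
lemma MPack.fillA {n K : ℕ} (hn : 1 ≤ n) (hK : 2 ≤ K) {s : ℝ} (hs : 0 < s) {ι : Type} [Fintype ι]
    (ρ : ι → ℝ) (h1 : ∀ i, s / K ^ 2 < ρ i) (h2 : ∀ i, ρ i ≤ s / K) :
    ∃ M : ℕ, (M : ℝ) * s ^ n ≤ (1 + 1 / (K : ℝ)) ^ n * ∑ i, ρ i ^ n + K ^ 2 * s ^ n ∧
      MPack n (fun _ : Fin M => s) ρ := by
  classical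
  have hKpos : (0 : ℝ) < K := by
    have : 0 < K := by omega
    exact_mod_cast this
  have hρ : ∀ i, 0 < ρ i := fun i => lt_trans (by positivity) (h1 i)
  set q : ι → ℕ := fun i => ⌊s / ρ i⌋₊ with hq
  have hqK : ∀ i, K ≤ q i := by
    intro i
    apply Nat.le_floor
    rw [le_div_iff₀ (hρ i)]
    have := h2 i
    rw [le_div_iff₀ hKpos] at this
    linarith
  have hqK2 : ∀ i, q i < K ^ 2 := by
    intro i
    rw [hq]
    simp only
    rw [Nat.floor_lt (by have := hρ i; positivity)]
    rw [div_lt_iff₀ (hρ i)]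
    have := h1 i
    rw [div_lt_iff₀ (by positivity)] at this
    push_cast
    linarith
  have hq1 : ∀ i, ρ i ≤ s / q i := by
    intro i
    have h : (0 : ℝ) < q i := by
      have := hqK i
      have : 0 < q i := by omega
      exact_mod_cast this
    rw [le_div_iff₀ h]
    have := Nat.floor_le (a := s / ρ i) (by have := hρ i; positivity)
    rw [le_div_iff₀ (hρ i)] at this
    linarith
  have hq2 : ∀ i, s / q i ≤ (1 + 1 / (K : ℝ)) * ρ i := by
    intro i
    have h : (K : ℝ) ≤ q i := by exact_mod_cast hqK i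
    have h0 : (0 : ℝ) < q i := by linarith
    have hlt : s / ρ i < q i + 1 := Nat.lt_floor_add_one _
    rw [div_lt_iff₀ (hρ i)] at hlt
    rw [div_le_iff₀ h0]
    have h3 : (q i : ℝ) + 1 ≤ (1 + 1 / (K : ℝ)) * q i := by
      have : 1 ≤ (1 / (K : ℝ)) * q i := by
        rw [one_div, inv_mul_eq_div, le_div_iff₀ hKpos]
        linarith
      linarith
    have := mul_le_mul_of_nonneg_right h3 (hρ i).le
    nlinarith
  let cnt : ℕ → ℕ := fun v => Fintype.card {i : ι // q i = v}
  let cc : ℕ → ℕ := fun v => cnt v / v ^ n + 1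
  have hblock : ∀ v : ℕ, MPack n (fun _ : Fin (cc v) => s) (fun i : {i : ι // q i = v} => ρ i) := by
    intro v
    by_cases hv : 1 ≤ v
    · have hsub := MPack.subdivFam (n := n) (q := v) hn hv hs (Fin (cc v))
      have hcard : Fintype.card {i : ι // q i = v} ≤ Fintype.card (Fin (cc v) × Fin (v ^ n)) := by
        simp only [Fintype.card_prod, Fintype.card_fin]
        show cnt v ≤ (cnt v / v ^ n + 1) * v ^ n
        have hvpos : 0 < v ^ n := by positivity
        have := Nat.lt_div_mul_add (a := cnt v) hvpos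
        nlinarith
      obtain ⟨e⟩ := Function.Embedding.nonempty_of_card_le hcard
      refine hsub.trans (MPack.of_inj e e.injective ?_)
      intro i
      have := hq1 i.1
      rw [i.2] at this
      exact this
    · have : IsEmpty {i : ι // q i = v} := by
        constructor
        rintro ⟨i, hi⟩
        have := hqK i
        omega
      exact MPack.of_inj (fun i => (this.false i).elim) (fun i => (this.false i).elim) (fun i => (this.false i).elim)
  have hsig := MPack.sigma (n := n) (J := Fin (K ^ 2)) (κ := fun v => Fin (cc v))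
    (ι := fun v => {i : ι // q i = v}) (σ := fun _ _ => s) (ρ := fun v i => ρ i) (fun v => hblock v)
  refine ⟨∑ v : Fin (K ^ 2), cc v, ?_, ?_⟩
  · push_cast
    rw [Finset.sum_mul]
    have hterm : ∀ v : Fin (K ^ 2), ((cc v : ℕ) : ℝ) * s ^ n
        ≤ (1 + 1 / (K : ℝ)) ^ n * (∑ i ∈ Finset.univ.filter (fun i => q i = v), ρ i ^ n) + s ^ n := by
      intro v
      have hcc : ((cc v : ℕ) : ℝ) = ((cnt v / (v : ℕ) ^ n : ℕ) : ℝ) + 1 := by
        show ((cnt v / (v : ℕ) ^ n + 1 : ℕ) : ℝ) = _
        push_cast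
        rfl
      rw [hcc, add_mul, one_mul]
      apply add_le_add_left
      by_cases hv : 1 ≤ (v : ℕ)
      · have hvpos : (0 : ℝ) < (v : ℕ) := by exact_mod_cast hv
        have hdiv : ((cnt v / (v : ℕ) ^ n : ℕ) : ℝ) ≤ (cnt v : ℝ) / ((v : ℕ) : ℝ) ^ n := by
          have := Nat.cast_div_le (α := ℝ) (m := cnt v) (n := (v : ℕ) ^ n)
          push_cast at this
          exact this
        have hcnt : (cnt v : ℝ) = ∑ i ∈ Finset.univ.filter (fun i => q i = (v : ℕ)), (1 : ℝ) := by
          rw [Finset.sum_const, nsmul_eq_mul, mul_one]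
          show ((Fintype.card {i : ι // q i = v} : ℕ) : ℝ) = _
          rw [Fintype.card_subtype]
        calc ((cnt v / (v : ℕ) ^ n : ℕ) : ℝ) * s ^ n ≤ (cnt v : ℝ) / ((v : ℕ) : ℝ) ^ n * s ^ n := by
              gcongr
          _ = ∑ i ∈ Finset.univ.filter (fun i => q i = (v : ℕ)), (s / (v : ℕ)) ^ n := by
              rw [Finset.sum_const, nsmul_eq_mul, hcnt]
              simp only [Finset.sum_const, nsmul_eq_mul, mul_one]
              rw [div_pow]
              ring
          _ ≤ ∑ i ∈ Finset.univ.filter (fun i => q i = (v : ℕ)), (1 + 1 / (K : ℝ)) ^ n * ρ i ^ n := by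
              apply Finset.sum_le_sum
              intro i hi
              simp only [Finset.mem_filter, Finset.mem_univ, true_and] at hi
              rw [← mul_pow]
              have := hq2 i
              rw [hi] at this
              apply pow_le_pow_left₀ (by positivity) this
          _ = _ := by rw [Finset.mul_sum]
      · have hv0 : (v : ℕ) = 0 := by omega
        have hc0 : cnt v = 0 := by
          show Fintype.card {i : ι // q i = v} = 0
          rw [Fintype.card_eq_zero_iff]
          constructor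
          rintro ⟨i, hi⟩
          have := hqK i
          omega
        rw [hc0]
        simp only [Nat.zero_div, Nat.cast_zero, zero_mul]
        apply mul_nonneg (by positivity)
        apply Finset.sum_nonneg
        intro i _
        exact (pow_pos (hρ i) n).le
    refine (Finset.sum_le_sum fun v _ => hterm v).trans ?_
    rw [Finset.sum_add_distrib, ← Finset.mul_sum]
    simp only [Finset.sum_const, Finset.card_univ, Fintype.card_fin, nsmul_eq_mul]
    push_cast
    apply add_le_add_left
    apply mul_le_mul_of_nonneg_left _ (by positivity)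
    -- fibers
    have hfib : ∑ v : Fin (K ^ 2), ∑ i ∈ Finset.univ.filter (fun i => q i = (v : ℕ)), ρ i ^ n
        = ∑ i, ρ i ^ n := by
      have := Finset.sum_fiberwise (s := (Finset.univ : Finset ι))
        (g := fun i => (⟨q i, hqK2 i⟩ : Fin (K ^ 2))) (f := fun i => ρ i ^ n)
      rw [← this]
      apply Finset.sum_congr rfl
      intro v _
      apply Finset.sum_congr _ (fun _ _ => rfl)
      ext i
      simp only [Finset.mem_filter, Finset.mem_univ, true_and]
      constructor
      · intro h; exact Fin.ext h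
      · intro h; exact congrArg Fin.val h
    rw [hfib]
  · have hcard : Fintype.card (Σ v : Fin (K ^ 2), Fin (cc v)) ≤ Fintype.card (Fin (∑ v : Fin (K ^ 2), cc v)) := by
      simp
    obtain ⟨e⟩ := Function.Embedding.nonempty_of_card_le hcard
    refine (MPack.of_inj (σ := fun _ : Fin (∑ v : Fin (K ^ 2), cc v) => s)
      (ρ := fun _ : (Σ v : Fin (K ^ 2), Fin (cc v)) => s) e e.injective (fun _ => le_rfl)).trans
      (hsig.trans (MPack.of_inj (fun i => ⟨⟨q i, hqK2 i⟩, ⟨i, rfl⟩⟩) ?_ (fun _ => le_rfl)))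
    intro i j h
    simp only [Sigma.mk.injEq, Fin.mk.injEq] at h
    obtain ⟨h1, h2⟩ := h
    have : ∀ (a b : ℕ) (hab : a = b) (x : {i : ι // q i = a}) (y : {i : ι // q i = b}),
        HEq x y → x.1 = y.1 := by
      rintro a _ rfl x y hxy
      rw [eq_of_heq hxy]
    exact this _ _ h1 _ _ h2

/-- Multi-scale filling of equal simplices by small ones. -/
theorem MPack.fill {n K : ℕ} (hn : 1 ≤ n) (hK : 2 ≤ K) : ∀ (L : ℕ) (s : ℝ), 0 < s →
    ∀ (ι : Type) [Fintype ι] (ρ : ι → ℝ), (∀ i, s / K ^ (L + 1) < ρ i) → (∀ i, ρ i ≤ s / K) →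
    ∀ M : ℕ, (1 + 1 / (K : ℝ)) ^ n * ∑ i, ρ i ^ n + 2 * K ^ 2 * s ^ n ≤ M * s ^ n →
    MPack n (fun _ : Fin M => s) ρ := by
  classical
  have hKpos : (0 : ℝ) < K := by
    have : 0 < K := by omega
    exact_mod_cast this
  have hK2 : (2 : ℝ) ≤ K := by exact_mod_cast hK
  intro L
  induction L with
  | zero =>
    intro s hs ι _ ρ h1 h2 M hM
    have hempty : IsEmpty ι := by
      constructor
      intro i
      have a1 := h1 i
      have a2 := h2 i
      simp only [zero_add, pow_one] at a1
      linarith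
    exact MPack.of_inj (fun i => (hempty.false i).elim) (fun i => (hempty.false i).elim)
      (fun i => (hempty.false i).elim)
  | succ L ih =>
    intro s hs ι _ ρ h1 h2 M hM
    have hsn : 0 < s ^ n := by positivity
    obtain ⟨MA, hMA, hpA⟩ := MPack.fillA (n := n) (K := K) hn hK hs
      (fun i : {i : ι // s / K ^ 2 < ρ i} => ρ i) (fun i => i.2) (fun i => h2 i)
    have hsplit : ∑ i, ρ i ^ n = ∑ i : {i : ι // s / K ^ 2 < ρ i}, ρ i ^ n
        + ∑ i : {i : ι // ¬ (s / K ^ 2 < ρ i)}, ρ i ^ n :=
      (Fintype.sum_subtype_add_sum_subtype (fun i => s / K ^ 2 < ρ i) (fun i => ρ i ^ n)).symm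
    have hρpos : ∀ i, 0 < ρ i := fun i => lt_trans (by positivity) (h1 i)
    have hBnonneg : 0 ≤ ∑ i : {i : ι // ¬ (s / K ^ 2 < ρ i)}, ρ i ^ n :=
      Finset.sum_nonneg fun i _ => (pow_pos (hρpos i) n).le
    have hfac : (0 : ℝ) < (1 + 1 / (K : ℝ)) ^ n := by positivity
    have hMAM : MA ≤ M := by
      have h3 : (MA : ℝ) * s ^ n ≤ M * s ^ n := by
        refine hMA.trans (le_trans ?_ hM)
        rw [hsplit, mul_add]
        have : 0 ≤ (1 + 1 / (K : ℝ)) ^ n * ∑ i : {i : ι // ¬ (s / K ^ 2 < ρ i)}, ρ i ^ n := by positivity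
        have : 0 ≤ (K : ℝ) ^ 2 * s ^ n := by positivity
        linarith
      have := le_of_mul_le_mul_right h3 hsn
      exact_mod_cast this
    set MB := M - MA with hMB
    have hMBcast : (MB : ℝ) = M - MA := by rw [hMB, Nat.cast_sub hMAM]
    -- small part
    have hpB : MPack n (fun _ : Fin (MB * K ^ n) => s / K)
        (fun i : {i : ι // ¬ (s / K ^ 2 < ρ i)} => ρ i) := by
      apply ih (s / K) (by positivity)
      · intro i
        have := h1 i.1
        have e : s / K / (K : ℝ) ^ (L + 1) = s / K ^ (L + 1 + 1) := by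
          rw [div_div, ← pow_succ']
        rw [e]
        exact this
      · intro i
        have := not_lt.1 i.2
        have e : s / K / (K : ℝ) = s / K ^ 2 := by
          rw [div_div, ← sq]
        rw [e]
        exact this
      · have e1 : ((MB * K ^ n : ℕ) : ℝ) * (s / K) ^ n = MB * s ^ n := by
          push_cast
          rw [div_pow]
          field_simp
        rw [e1, hMBcast, sub_mul]
        have e2 : (2 : ℝ) * K ^ 2 * (s / K) ^ n ≤ K ^ 2 * s ^ n := by
          rw [div_pow]
          have h3 : (2 : ℝ) ≤ (K : ℝ) ^ n := by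
            calc (2 : ℝ) ≤ K := hK2
              _ = (K : ℝ) ^ 1 := (pow_one _).symm
              _ ≤ (K : ℝ) ^ n := pow_le_pow_right₀ (by linarith) hn
          have h4 : s ^ n / (K : ℝ) ^ n ≤ s ^ n / 2 := by gcongr
          have h5 : (2 : ℝ) * K ^ 2 * (s ^ n / (K : ℝ) ^ n) ≤ 2 * K ^ 2 * (s ^ n / 2) := by gcongr
          linarith
        rw [hsplit, mul_add] at hM
        linarith
    -- assemble
    have hsubB := MPack.subdivFam (n := n) (q := K) hn (by omega) hs (Fin MB)
    have hcardB : Fintype.card (Fin (MB * K ^ n)) ≤ Fintype.card (Fin MB × Fin (K ^ n)) := by simp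
    obtain ⟨eB⟩ := Function.Embedding.nonempty_of_card_le hcardB
    have hB : MPack n (fun _ : Fin MB => s) (fun i : {i : ι // ¬ (s / K ^ 2 < ρ i)} => ρ i) :=
      hsubB.trans ((MPack.of_inj (σ := fun _ : Fin MB × Fin (K ^ n) => s / K)
        (ρ := fun _ : Fin (MB * K ^ n) => s / K) eB eB.injective (fun _ => le_rfl)).trans hpB)
    have hAB := hpA.sum hB
    have hcard : Fintype.card (Fin MA ⊕ Fin MB) ≤ Fintype.card (Fin M) := by
      simp only [Fintype.card_sum, Fintype.card_fin]
      omega
    obtain ⟨e⟩ := Function.Embedding.nonempty_of_card_le hcard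
    refine (MPack.of_inj (σ := fun _ : Fin M => s)
      (ρ := Sum.elim (fun _ : Fin MA => s) (fun _ : Fin MB => s)) e e.injective ?_).trans
      (hAB.trans (MPack.of_inj (Equiv.sumCompl (fun i => s / K ^ 2 < ρ i)).symm
        (Equiv.injective _) ?_))
    · rintro (i | i) <;> exact le_rfl
    · intro i
      by_cases hi : s / K ^ 2 < ρ i
      · rw [Equiv.sumCompl_symm_apply_of_pos (p := fun i => s / K ^ 2 < ρ i) hi]
        exact le_rfl
      · rw [Equiv.sumCompl_symm_apply_of_neg (p := fun i => s / K ^ 2 < ρ i) hi]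
        exact le_rfl

end Vale.Agent.Lib.P209
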