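import Mathlib
import Vale.Agent.Lib.P209.Defs
import Vale.Agent.Lib.P209.MPack
import Vale.Agent.Lib.P209.Core
import Vale.Agent.Lib.P209.Fill

open scoped ContDiff Topology

noncomputable section

namespace Vale.Agent.Lib.P209

lemma pow_succ_sub_le {x y : ℝ} (hy : 0 ≤ y) (hxy : y ≤ x) (n : ℕ) :
    x ^ (n + 1) - y ^ (n + 1) ≤ (n + 1) * (x - y) * x ^ n := by
  induction n with
  | zero => simp
  | succ n ih =>
    have hx : 0 ≤ x := hy.trans hxy
    have h1 : x ^ (n + 1 + 1) - y ^ (n + 1 + 1) = x * (x ^ (n + 1) - y ^ (n + 1)) + (x - y) * y ^ (n + 1) := by ring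
    have h2 : x * (x ^ (n + 1) - y ^ (n + 1)) ≤ x * ((n + 1) * (x - y) * x ^ n) :=
      mul_le_mul_of_nonneg_left ih hx
    have h3 : (x - y) * y ^ (n + 1) ≤ (x - y) * x ^ (n + 1) :=
      mul_le_mul_of_nonneg_left (pow_le_pow_left₀ hy hxy _) (by linarith)
    rw [h1]
    push_cast
    calc _ ≤ x * ((n + 1) * (x - y) * x ^ n) + (x - y) * x ^ (n + 1) := add_le_add h2 h3
      _ = _ := by ring

lemma pow_sub_le {x y : ℝ} (hy : 0 ≤ y) (hxy : y ≤ x) {n : ℕ} (hn : 1 ≤ n) :
    x ^ n - y ^ n ≤ n * (x - y) * x ^ (n - 1) := by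
  obtain ⟨m, rfl⟩ : ∃ m, n = m + 1 := ⟨n - 1, by omega⟩
  have := pow_succ_sub_le hy hxy m
  push_cast
  simpa using this

lemma shift_pow_le {a b c : ℝ} (ha : 0 ≤ a) (hc : 0 ≤ c) (hab : a ≤ b) (n : ℕ) :
    (a + c) ^ n - a ^ n ≤ (b + c) ^ n - b ^ n := by
  induction n with
  | zero => simp
  | succ n ih =>
    have h1 : (a + c) ^ (n + 1) - a ^ (n + 1) = (a + c) * ((a + c) ^ n - a ^ n) + c * a ^ n := by ring
    have h2 : (b + c) ^ (n + 1) - b ^ (n + 1) = (b + c) * ((b + c) ^ n - b ^ n) + c * b ^ n := by ring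
    rw [h1, h2]
    have h3 : 0 ≤ (a + c) ^ n - a ^ n := sub_nonneg.2 (pow_le_pow_left₀ ha (by linarith) n)
    have h4 : a ^ n ≤ b ^ n := pow_le_pow_left₀ ha hab n
    have h5 : (a + c) * ((a + c) ^ n - a ^ n) ≤ (b + c) * ((b + c) ^ n - b ^ n) :=
      mul_le_mul (by linarith) ih h3 (by linarith)
    have h6 : c * a ^ n ≤ c * b ^ n := mul_le_mul_of_nonneg_left h4 hc
    linarith

lemma shift_pow_le_nat {p q : ℕ} (hqp : q ≤ p) (n : ℕ) :
    p ^ n + (2 * q) ^ n ≤ (p + q) ^ n + q ^ n := by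
  have h := shift_pow_le (a := (q : ℝ)) (b := (p : ℝ)) (c := (q : ℝ)) (by positivity)
    (by positivity) (by exact_mod_cast hqp) n
  have h2 : (p : ℝ) ^ n + (2 * q) ^ n ≤ (p + q) ^ n + q ^ n := by
    have e : (q : ℝ) + q = 2 * q := by ring
    rw [e] at h
    linarith
  exact_mod_cast h2

/-- carve a simplex of size `z` out of one of size `q δ` and fill the rest with simplices of size
`δ`. -/
lemma MPack.carve {n q : ℕ} (hn : 1 ≤ n) {δ : ℝ} (hδ : 0 < δ) {z R : ℝ}
    (hz0 : 0 ≤ z) (hz : z ≤ q * δ) (hR : q * δ ≤ R) :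
    ∃ N : ℕ, MPack n (fun _ : Unit => q * δ) (Sum.elim (fun _ : Unit => z) (fun _ : Fin N => δ)) ∧
      (q * δ) ^ n - z ^ n - n * δ * R ^ (n - 1) ≤ N * δ ^ n := by
  set m := ⌈z / δ⌉₊ with hm
  have hmq : m ≤ q := by
    apply Nat.ceil_le.2
    rw [div_le_iff₀ hδ]
    exact hz
  have hzm : z ≤ m * δ := by
    rw [← div_le_iff₀ hδ]
    exact Nat.le_ceil _
  have hmz : m * δ ≤ z + δ := by
    have := Nat.ceil_lt_add_one (a := z / δ) (by positivity)
    have h2 : (m : ℝ) * δ < (z / δ + 1) * δ := mul_lt_mul_of_pos_right this hδ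
    have e : (z / δ + 1) * δ = z + δ := by field_simp
    linarith
  have hmqR : (m : ℝ) ≤ q := by exact_mod_cast hmq
  have hmR : m * δ ≤ R := le_trans (mul_le_mul_of_nonneg_right hmqR hδ.le) hR
  have hpow : m ^ n ≤ q ^ n := Nat.pow_le_pow_left hmq n
  refine ⟨q ^ n - m ^ n, ?_, ?_⟩
  · have h := MPack.oneBig (n := n) (m := m) (t := q - m) hn (a := m * δ) (b := δ) (by positivity) hδ
      le_rfl (q ^ n - m ^ n) (by
        have : m + (q - m) = q := by omega
        rw [this]
        omega)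
    have e : (m : ℝ) * δ + ((q - m : ℕ) : ℝ) * δ = q * δ := by
      rw [Nat.cast_sub hmq]; ring
    rw [e] at h
    refine h.trans (MPack.of_inj id Function.injective_id ?_)
    rintro (i | i)
    · exact hzm
    · exact le_rfl
  · rw [Nat.cast_sub hpow]
    push_cast
    have h1 := pow_sub_le hz0 hzm hn
    have hR0 : 0 ≤ R := le_trans (by positivity) hmR
    have h2 : (n : ℝ) * (m * δ - z) * (m * δ) ^ (n - 1) ≤ n * δ * R ^ (n - 1) := by
      have h3 : (m * δ) ^ (n - 1) ≤ R ^ (n - 1) := pow_le_pow_left₀ (by positivity) hmR _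
      have h4 : (n : ℝ) * (m * δ - z) ≤ n * δ := by
        apply mul_le_mul_of_nonneg_left _ (by positivity)
        linarith
      have h5 : 0 ≤ (n : ℝ) * (m * δ - z) := by
        apply mul_nonneg (by positivity)
        linarith
      exact mul_le_mul h4 h3 (by positivity) (by positivity)
    have e : ((q : ℝ) ^ n - (m : ℝ) ^ n) * δ ^ n = (q * δ) ^ n - (m * δ) ^ n := by
      rw [mul_pow, mul_pow]; ring
    rw [e]
    linarith

lemma MPack.refl {n : ℕ} {κ : Type} (σ : κ → ℝ) : MPack n σ σ :=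
  MPack.of_inj id Function.injective_id (fun _ => le_rfl)

lemma MPack.slots {n m : ℕ} {T δ : ℝ} (sz : Fin m → ℝ) (Nw : Fin m → ℕ)
    (hNw : ∀ w, MPack n (fun _ : Unit => T) (Sum.elim (fun _ : Unit => sz w) (fun _ : Fin (Nw w) => δ))) :
    MPack n (fun _ : Fin m => T)
      (Sum.elim sz (fun _ : (Σ w : Fin m, Fin (Nw w)) => δ)) := by
  have h := MPack.sigma (n := n) (J := Fin m) (κ := fun _ => Unit)
    (ι := fun w => Unit ⊕ Fin (Nw w)) (σ := fun _ _ => T)
    (ρ := fun w => Sum.elim (fun _ => sz w) (fun _ => δ)) hNw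
  refine (MPack.of_inj (σ := fun _ : Fin m => T)
    (ρ := fun _ : (Σ _ : Fin m, Unit) => T) (fun x => x.1) ?_ (fun _ => le_rfl)).trans
    (h.trans (MPack.of_inj (Sum.elim (fun w => ⟨w, Sum.inl ()⟩) (fun x => ⟨x.1, Sum.inr x.2⟩)) ?_ ?_))
  · rintro ⟨x, _⟩ ⟨y, _⟩ h
    simp at h
    simp [h]
  · rintro (x | ⟨x, x'⟩) (y | ⟨y, y'⟩) h
    · simp at h
      rw [h.1]
    · simp at h
      obtain ⟨rfl, h⟩ := h
      exact absurd (eq_of_heq h) (by simp)
    · simp at h
      obtain ⟨rfl, h⟩ := h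
      exact absurd (eq_of_heq h) (by simp)
    · simp at h
      obtain ⟨rfl, h⟩ := h
      have := eq_of_heq h
      simp at this
      rw [this]
  · rintro (x | ⟨x, x'⟩)
    · exact le_rfl
    · exact le_rfl

lemma MPack.regroup {n m N0 N M : ℕ} {a0 δ : ℝ} (sz : Fin m → ℝ) (Nw : Fin m → ℕ)
    (hM : M = N0 + (∑ w, Nw w) + N) :
    MPack n (Sum.elim (Sum.elim (fun _ : Unit => a0) (fun _ : Fin N0 => δ))
        (Sum.elim (Sum.elim sz (fun _ : (Σ w : Fin m, Fin (Nw w)) => δ))
          (fun _ : Fin N => δ)))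
      (Sum.elim (fun _ : Unit => a0) (Sum.elim sz (fun _ : Fin M => δ))) := by
  have hcardM : Fintype.card (Fin M) ≤
      Fintype.card (Fin N0 ⊕ ((Σ w : Fin m, Fin (Nw w)) ⊕ Fin N)) := by
    simp only [Fintype.card_sum, Fintype.card_fin, Fintype.card_sigma]
    omega
  obtain ⟨g⟩ := Function.Embedding.nonempty_of_card_le hcardM
  refine MPack.of_inj
      (Sum.elim (fun _ => Sum.inl (Sum.inl ()))
        (Sum.elim (fun w => Sum.inr (Sum.inl (Sum.inl w)))
          (fun i => match g i with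
            | Sum.inl x => Sum.inl (Sum.inr x)
            | Sum.inr (Sum.inl y) => Sum.inr (Sum.inl (Sum.inr y))
            | Sum.inr (Sum.inr z) => Sum.inr (Sum.inr z)))) ?_ ?_
  · rintro (x | x | x) (y | y | y) h
    · rfl
    · simp at h
    · simp only [Sum.elim_inl, Sum.elim_inr] at h
      rcases hg : g y with z | z | z <;> rw [hg] at h <;> simp at h
    · simp at h
    · simp at h
      rw [h]
    · simp only [Sum.elim_inl, Sum.elim_inr] at h
      rcases hg : g y with z | z | z <;> rw [hg] at h <;> simp at h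
    · simp only [Sum.elim_inl, Sum.elim_inr] at h
      rcases hg : g x with z | z | z <;> rw [hg] at h <;> simp at h
    · simp only [Sum.elim_inl, Sum.elim_inr] at h
      rcases hg : g x with z | z | z <;> rw [hg] at h <;> simp at h
    · simp only [Sum.elim_inr] at h
      have : g x = g y := by
        rcases hg : g x with z | z | z <;> rcases hg' : g y with z' | z' | z' <;>
          rw [hg, hg'] at h <;> simp at h <;> simp [h]
      rw [g.injective this]
  · rintro (x | x | x)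
    · exact le_rfl
    · exact le_rfl
    · simp only [Sum.elim_inr]
      rcases hg : g x with z | z | z <;> exact le_rfl

lemma MPack.final {n m : ℕ} {ι : Type} [DecidableEq ι] (ρ : ι → ℝ) (i₀ : ι) (t : ℝ)
    (e : {i : ι // i ≠ i₀ ∧ t < ρ i} ↪ Fin m) (sz : Fin m → ℝ) (hsz_e : ∀ i, sz (e i) = ρ i.1) :
    MPack n (Sum.elim (fun _ : Unit => ρ i₀)
      (Sum.elim sz (fun i : {i : ι // i ≠ i₀ ∧ ¬ (t < ρ i)} => ρ i.1))) ρ := by
  classical
  refine MPack.of_inj
    (fun i => if h : i = i₀ then Sum.inl () else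
      if h' : t < ρ i then Sum.inr (Sum.inl (e ⟨i, h, h'⟩)) else Sum.inr (Sum.inr ⟨i, h, h'⟩)) ?_ ?_
  · intro x y h
    simp only at h
    by_cases hx : x = i₀
    · by_cases hy : y = i₀
      · rw [hx, hy]
      · by_cases hy' : t < ρ y <;> simp [hx, hy, hy'] at h
    · by_cases hy : y = i₀
      · by_cases hx' : t < ρ x <;> simp [hx, hy, hx'] at h
      · by_cases hx' : t < ρ x
        · by_cases hy' : t < ρ y
          · simp only [hx, hy, hx', hy', dite_true, dite_false, Sum.inr.injEq, Sum.inl.injEq] at h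
            have := e.injective h
            simpa using this
          · simp [hx, hy, hx', hy'] at h
        · by_cases hy' : t < ρ y
          · simp [hx, hy, hx', hy'] at h
          · simp only [hx, hy, hx', hy', dite_false, Sum.inr.injEq] at h
            simpa using h
  · intro i
    by_cases hx : i = i₀
    · simp only [hx, dite_true, Sum.elim_inl]
      exact le_rfl
    · by_cases hx' : t < ρ i
      · simp only [hx, hx', dite_true, dite_false, Sum.elim_inl, Sum.elim_inr]
        rw [hsz_e]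
      · simp only [hx, hx', dite_false, Sum.elim_inr]
        exact le_rfl

set_option maxHeartbeats 1600000 in
/-- The packing theorem for at most `2 ^ n` non-small simplices, in packing form. -/
theorem MPack.main {n : ℕ} (hn : 1 ≤ n) {η : ℝ} (hη : 0 < η) (hη1 : η < 1) :
    ∃ ε : ℝ, 0 < ε ∧ ∀ (R : ℝ), 0 < R → ∀ (ι : Type) [Fintype ι] (ρ : ι → ℝ), (∀ i, 0 < ρ i) →
      (∀ i j, i ≠ j → ρ i + ρ j ≤ R) → ∑ i, ρ i ^ n ≤ (1 - η) * R ^ n →
      Nat.card {i : ι // ε * R < ρ i} ≤ 2 ^ n → MPack n (fun _ : Unit => R) ρ := by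
  classical
  have hnR : (1 : ℝ) ≤ n := by exact_mod_cast hn
  -- choice of K
  obtain ⟨K, hK2, hKη⟩ : ∃ K : ℕ, 2 ≤ K ∧ (1 + 1 / (K : ℝ)) ^ n ≤ 1 + η / 8 := by
    have h1 : Filter.Tendsto (fun K : ℕ => (1 + 1 / (K : ℝ)) ^ n) Filter.atTop (𝓝 ((1 + 0) ^ n)) :=
      (tendsto_const_nhds.add tendsto_one_div_atTop_nhds_zero_nat).pow n
    simp only [add_zero, one_pow] at h1
    have h2 := h1.eventually (ge_mem_nhds (show (1 : ℝ) < 1 + η / 8 by linarith))
    obtain ⟨K, hK1, hK2⟩ := (h2.and (Filter.eventually_ge_atTop 2)).exists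
    exact ⟨K, hK2, hK1⟩
  have hKpos : (0 : ℝ) < K := by
    have : 0 < K := by omega
    exact_mod_cast this
  -- choice of q
  obtain ⟨q, hq1, hqη⟩ : ∃ q : ℕ, 1 ≤ q ∧ ((2 ^ n + 1) * n + 2 * K ^ 2) / (2 * (q : ℝ)) ≤ η / 8 := by
    obtain ⟨q, hq⟩ := exists_nat_ge (((2 ^ n + 1) * n + 2 * K ^ 2) * 8 / (2 * η) : ℝ)
    have hpos : (0 : ℝ) < ((2 ^ n + 1) * n + 2 * K ^ 2) * 8 / (2 * η) := by positivity
    have hq0 : (0 : ℝ) < q := lt_of_lt_of_le hpos hq
    refine ⟨q, by exact_mod_cast hq0, ?_⟩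
    rw [div_le_iff₀ (by positivity)] at hq ⊢
    linarith
  have hqpos : (0 : ℝ) < q := by exact_mod_cast hq1
  set τ : ℝ := min (1 / 2) (η / n) with hτ
  have hτpos : 0 < τ := lt_min (by norm_num) (by positivity)
  refine ⟨τ / (q * K), by positivity, ?_⟩
  intro R hR ι _ ρ hρ hpair hvol hcard
  rcases isEmpty_or_nonempty ι with hι | hι
  · exact MPack.of_inj (fun i => (hι.false i).elim) (fun i => (hι.false i).elim)
      (fun i => (hι.false i).elim)
  set ε : ℝ := τ / (q * K) with hε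
  have hRn : 0 < R ^ n := by positivity
  obtain ⟨i₀, hi₀⟩ := Finite.exists_max ρ
  set a0 := ρ i₀ with ha0
  have ha0pos : 0 < a0 := hρ i₀
  set a := max a0 (R / 2) with ha
  set T := R - a with hT
  have ha2 : R / 2 ≤ a := le_max_right _ _
  have haT : a + T = R := by rw [hT]; ring
  have hTa : T ≤ a := by linarith
  have hT2 : T ≤ R / 2 := by linarith
  -- lower bound for T
  have ha0R : a0 ≤ (1 - η / n) * R := by
    by_contra hcon
    push Not at hcon
    have h1 : a0 ^ n ≤ ∑ i, ρ i ^ n :=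
      Finset.single_le_sum (f := fun i => ρ i ^ n) (fun i _ => (pow_pos (hρ i) n).le)
        (Finset.mem_univ i₀)
    have hηn : η / n ≤ 1 := by
      rw [div_le_one (by linarith)]
      linarith
    have h2 : ((1 - η / n) * R) ^ n < a0 ^ n := by
      apply pow_lt_pow_left₀ hcon _ (by omega)
      apply mul_nonneg (by linarith) hR.le
    have h3 : 1 - η ≤ (1 - η / n) ^ n := by
      have := one_add_mul_le_pow (a := -(η / n)) (by linarith) n
      have e : 1 + (n : ℝ) * -(η / n) = 1 - η := by field_simp; ring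
      rw [e] at this
      have e2 : 1 + -(η / n) = 1 - η / n := by ring
      rwa [e2] at this
    have h4 : (1 - η) * R ^ n ≤ ((1 - η / n) * R) ^ n := by
      rw [mul_pow]
      exact mul_le_mul_of_nonneg_right h3 hRn.le
    linarith
  have hTτ : τ * R ≤ T := by
    have h1 : τ * R ≤ 1 / 2 * R := mul_le_mul_of_nonneg_right (min_le_left _ _) hR.le
    have h2 : τ * R ≤ η / n * R := mul_le_mul_of_nonneg_right (min_le_right _ _) hR.le
    have h3 : a ≤ R - τ * R := by
      rw [ha]
      apply max_le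
      · linarith
      · linarith
    linarith
  have hTpos : 0 < T := lt_of_lt_of_le (by positivity) hTτ
  -- others fit in T
  have hothers : ∀ i, i ≠ i₀ → ρ i ≤ T := by
    intro i hi
    have h1 := hpair i i₀ hi
    have h2 := hi₀ i
    rcases le_total a0 (R / 2) with h | h
    · have : a = R / 2 := max_eq_right h
      linarith
    · have : a = a0 := max_eq_left h
      linarith
  set δ := T / q with hδ
  have hδpos : 0 < δ := by positivity
  have hqδ : (q : ℝ) * δ = T := by rw [hδ]; field_simp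
  set p := ⌊a / δ⌋₊ with hp
  have hapos : 0 < a := by linarith
  have hpa : p * δ ≤ a := by
    rw [← le_div_iff₀ hδpos]
    exact Nat.floor_le (by positivity)
  have hap : a ≤ p * δ + δ := by
    have := Nat.lt_floor_add_one (a / δ)
    rw [div_lt_iff₀ hδpos] at this
    linarith
  have hqp : q ≤ p := by
    apply Nat.le_floor
    rw [le_div_iff₀ hδpos, hqδ]
    exact hTa
  have hδR : δ ≤ R / (2 * q) := by
    rw [hδ, div_le_div_iff₀ hqpos (by positivity)]
    nlinarith
  -- the large ones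
  set Lg := {i : ι // i ≠ i₀ ∧ ε * R < ρ i} with hLg
  have hLgcard : Fintype.card Lg ≤ 2 ^ n - 1 := by
    by_cases h : ε * R < ρ i₀
    · have h1 : Fintype.card Lg < Fintype.card {i : ι // ε * R < ρ i} := by
        apply Fintype.card_lt_of_injective_of_notMem (fun i : Lg => (⟨i.1, i.2.2⟩ : {i : ι // ε * R < ρ i}))
          (b := ⟨i₀, h⟩)
        · intro x y hxy
          simp only [Subtype.mk.injEq] at hxy
          exact Subtype.ext hxy
        · rintro ⟨x, hx⟩
          simp only [Subtype.mk.injEq] at hx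
          exact x.2.1 hx
      rw [Nat.card_eq_fintype_card] at hcard
      omega
    · have : IsEmpty Lg := by
        constructor
        rintro ⟨i, hi, hi'⟩
        apply h
        exact hi'.trans_le (hi₀ i)
      simp
  have h2n : 1 ≤ 2 ^ n := Nat.one_le_two_pow
  have hemb : Fintype.card Lg ≤ Fintype.card (Fin (2 ^ n - 1)) := by simpa using hLgcard
  obtain ⟨e⟩ := Function.Embedding.nonempty_of_card_le hemb
  -- sizes attached to the slots
  let sz : Fin (2 ^ n - 1) → ℝ := fun w => if h : ∃ i : Lg, e i = w then ρ h.choose.1 else 0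
  have hsz_e : ∀ i : Lg, sz (e i) = ρ i.1 := by
    intro i
    have h : ∃ j : Lg, e j = e i := ⟨i, rfl⟩
    have : h.choose = i := e.injective h.choose_spec
    simp only [sz, h, dite_true]
    rw [this]
  have hsz0 : ∀ w, 0 ≤ sz w := by
    intro w
    by_cases h : ∃ i : Lg, e i = w
    · simp only [sz, h, dite_true]
      exact (hρ _).le
    · simp only [sz, h, dite_false]
      exact le_rfl
  have hszT : ∀ w, sz w ≤ q * δ := by
    intro w
    rw [hqδ]
    by_cases h : ∃ i : Lg, e i = w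
    · simp only [sz, h, dite_true]
      exact hothers _ h.choose.2.1
    · simp only [sz, h, dite_false]
      exact hTpos.le
  have hszsum : ∑ w, sz w ^ n = ∑ i : Lg, ρ i.1 ^ n := by
    have h1 : ∑ w, sz w ^ n = ∑ w ∈ (Finset.univ.map e), sz w ^ n := by
      symm
      apply Finset.sum_subset (Finset.subset_univ _)
      intro w _ hw
      have h : ¬ ∃ i : Lg, e i = w := by
        rintro ⟨i, rfl⟩
        apply hw
        simp
      simp only [sz, h, dite_false]
      exact zero_pow (by omega)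
    rw [h1, Finset.sum_map]
    apply Finset.sum_congr rfl
    intro i _
    rw [hsz_e]
  -- constants
  set E := (n : ℝ) * δ * R ^ (n - 1) with hE
  have hTR : (q : ℝ) * δ ≤ R := by rw [hqδ]; linarith
  -- carving of the slots
  have hcarve := fun w => MPack.carve (n := n) (q := q) hn hδpos (hsz0 w) (hszT w) hTR
  choose Nw hNw hNw' using hcarve
  -- carving of the big simplex
  obtain ⟨N0, hN0, hN0'⟩ : ∃ N : ℕ, MPack n (fun _ : Unit => a)
      (Sum.elim (fun _ : Unit => a0) (fun _ : Fin N => δ)) ∧ a ^ n - a0 ^ n - E ≤ N * δ ^ n := by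
    rcases le_total a0 (R / 2) with h | h
    · have haR : a = R / 2 := max_eq_right h
      have hTR2 : T = R / 2 := by rw [hT, haR]; ring
      have haq : a = q * δ := by rw [hqδ, hTR2, haR]
      obtain ⟨N, h1, h2⟩ := MPack.carve (n := n) (q := q) hn hδpos (z := a0) (R := R) ha0pos.le
        (by rw [hqδ, hTR2]; exact h) hTR
      rw [← haq] at h1 h2
      exact ⟨N, h1, h2⟩
    · have haa : a = a0 := max_eq_left h
      refine ⟨0, ?_, ?_⟩
      · apply MPack.of_inj (fun _ => ())
        · rintro (i | i) (j | j) _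
          · rfl
          · exact j.elim0
          · exact i.elim0
          · exact i.elim0
        · rintro (i | i)
          · exact haa.ge
          · exact i.elim0
      · rw [haa]
        have : 0 ≤ E := by positivity
        simp
        exact this
  -- the core
  set N := (p + q) ^ n + q ^ n - (p ^ n + (2 * q) ^ n) with hN
  have hNle := shift_pow_le_nat hqp n
  have hcore := MPack.core (n := n) (p := p) (q := q) hn (a := a) hδpos hq1 hqp hpa N (by omega)
    (Fin (2 ^ n - 1)) (by simp)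
  have hRe : a + q * δ = R := by rw [hqδ]; exact haT
  rw [hRe] at hcore
  -- total number of small cells
  set M := N0 + (∑ w, Nw w) + N with hM
  have hMδ : R ^ n - a0 ^ n - ∑ i : Lg, ρ i.1 ^ n - (2 ^ n + 1) * E ≤ M * δ ^ n := by
    rw [hM]
    push_cast
    have e0 : ((N0 : ℝ) + ∑ w, (Nw w : ℝ) + N) * δ ^ n
        = N0 * δ ^ n + ∑ w, (Nw w : ℝ) * δ ^ n + N * δ ^ n := by
      rw [add_mul, add_mul, Finset.sum_mul]
    rw [e0]
    have h1 : ∑ w : Fin (2 ^ n - 1), ((q * δ) ^ n - sz w ^ n - E) ≤ ∑ w, (Nw w : ℝ) * δ ^ n :=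
      Finset.sum_le_sum fun w _ => hNw' w
    have h2 : ∑ w : Fin (2 ^ n - 1), ((q * δ) ^ n - sz w ^ n - E)
        = ((2 : ℝ) ^ n - 1) * T ^ n - ∑ i : Lg, ρ i.1 ^ n - ((2 : ℝ) ^ n - 1) * E := by
      rw [Finset.sum_sub_distrib, Finset.sum_sub_distrib, hszsum, hqδ]
      simp only [Finset.sum_const, Finset.card_univ, Fintype.card_fin, nsmul_eq_mul]
      rw [Nat.cast_sub h2n]
      push_cast
      ring
    have h3 : (N : ℝ) * δ ^ n = (p * δ + T) ^ n - (p * δ) ^ n - ((2 : ℝ) ^ n - 1) * T ^ n := by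
      rw [hN, Nat.cast_sub hNle]
      push_cast
      rw [← hqδ]
      have e1 : ((p : ℝ) * δ + q * δ) ^ n = (p + q) ^ n * δ ^ n := by rw [← mul_pow]; ring
      rw [e1, mul_pow, mul_pow, mul_pow]
      ring
    have h4 : (a + T) ^ n - (p * δ + T) ^ n ≤ E := by
      have h5 := pow_sub_le (x := a + T) (y := p * δ + T) (by positivity) (by linarith) hn
      refine h5.trans ?_
      rw [hE, haT]
      apply mul_le_mul_of_nonneg_right _ (by positivity)
      apply mul_le_mul_of_nonneg_left _ (by positivity)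
      linarith
    have h6 : (p * δ) ^ n ≤ a ^ n := pow_le_pow_left₀ (by positivity) hpa n
    rw [haT] at h4
    linarith
  -- the small ones
  set Sm := {i : ι // i ≠ i₀ ∧ ¬ (ε * R < ρ i)} with hSm
  have hfill : MPack n (fun _ : Fin M => δ) (fun i : Sm => ρ i.1) := by
    obtain ⟨L, hL⟩ : ∃ L : ℕ, ∀ i : Sm, δ / (K : ℝ) ^ (L + 1) < ρ i.1 := by
      have h1 : ∀ i : Sm, ∀ᶠ L : ℕ in Filter.atTop, δ / (K : ℝ) ^ (L + 1) < ρ i.1 := by
        intro i
        have hK1 : (1 : ℝ) < K := by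
          have : 1 < K := by omega
          exact_mod_cast this
        have h2 : Filter.Tendsto (fun L : ℕ => δ / (K : ℝ) ^ (L + 1)) Filter.atTop (𝓝 0) := by
          have h3 := (tendsto_inv_atTop_zero.comp (tendsto_pow_atTop_atTop_of_one_lt hK1)).comp
            (Filter.tendsto_add_atTop_nat 1)
          have h4 := h3.const_mul δ
          simp only [mul_zero] at h4
          exact h4
        exact h2.eventually (gt_mem_nhds (hρ i.1))
      exact (Filter.eventually_all.2 h1).exists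
    apply MPack.fill hn hK2 L δ hδpos Sm (fun i => ρ i.1) hL
    · intro i
      have h1 := not_lt.1 i.2.2
      refine h1.trans ?_
      rw [hε, hδ, div_div, div_mul_eq_mul_div]
      gcongr
    · have hV : ∑ i, ρ i ^ n = a0 ^ n + ∑ i : Lg, ρ i.1 ^ n + ∑ i : Sm, ρ i.1 ^ n := by
        rw [← Finset.add_sum_erase Finset.univ (fun i => ρ i ^ n) (Finset.mem_univ i₀), add_assoc]
        congr 1
        have h1 : ∑ i : Lg, ρ i.1 ^ n = ∑ i ∈ Finset.univ.filter (fun i => i ≠ i₀ ∧ ε * R < ρ i), ρ i ^ n := by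
          rw [Finset.sum_subtype (Finset.univ.filter (fun i => i ≠ i₀ ∧ ε * R < ρ i)) (p := fun i => i ≠ i₀ ∧ ε * R < ρ i) (by simp)]
        have h2 : ∑ i : Sm, ρ i.1 ^ n = ∑ i ∈ Finset.univ.filter (fun i => i ≠ i₀ ∧ ¬ (ε * R < ρ i)), ρ i ^ n := by
          rw [Finset.sum_subtype (Finset.univ.filter (fun i => i ≠ i₀ ∧ ¬ (ε * R < ρ i))) (p := fun i => i ≠ i₀ ∧ ¬ (ε * R < ρ i)) (by simp)]
        rw [h1, h2, ← Finset.sum_filter_add_sum_filter_not (Finset.univ.erase i₀) (fun i => ε * R < ρ i)]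
        congr 1
        · apply Finset.sum_congr _ (fun _ _ => rfl)
          ext i; simp
        · apply Finset.sum_congr _ (fun _ _ => rfl)
          ext i; simp
      have hS0 : 0 ≤ ∑ i : Sm, ρ i.1 ^ n := Finset.sum_nonneg fun i _ => (pow_pos (hρ i.1) n).le
      have hL0 : 0 ≤ ∑ i : Lg, ρ i.1 ^ n := Finset.sum_nonneg fun i _ => (pow_pos (hρ i.1) n).le
      have ha00 : 0 ≤ a0 ^ n := by positivity
      have hSR : ∑ i : Sm, ρ i.1 ^ n ≤ R ^ n := by
        have : (1 - η) * R ^ n ≤ R ^ n := by nlinarith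
        linarith
      have h1 : (1 + 1 / (K : ℝ)) ^ n * ∑ i : Sm, ρ i.1 ^ n ≤ ∑ i : Sm, ρ i.1 ^ n + η / 8 * R ^ n := by
        calc (1 + 1 / (K : ℝ)) ^ n * ∑ i : Sm, ρ i.1 ^ n ≤ (1 + η / 8) * ∑ i : Sm, ρ i.1 ^ n :=
              mul_le_mul_of_nonneg_right hKη hS0
          _ = ∑ i : Sm, ρ i.1 ^ n + η / 8 * ∑ i : Sm, ρ i.1 ^ n := by ring
          _ ≤ _ := by gcongr
      have hRe : R ^ (n - 1) * R = R ^ n := by
        rw [← pow_succ]; congr 1; omega
      have hδR1 : δ ≤ R := by linarith [le_trans hδR (show R / (2 * q) ≤ R by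
        rw [div_le_iff₀ (by positivity)]
        have : (1 : ℝ) ≤ q := by exact_mod_cast hq1
        nlinarith)]
      have h2 : (2 : ℝ) * K ^ 2 * δ ^ n ≤ 2 * K ^ 2 * δ * R ^ (n - 1) := by
        have e1 : δ ^ n = δ * δ ^ (n - 1) := by
          rw [← pow_succ']; congr 1; omega
        rw [e1, ← mul_assoc]
        apply mul_le_mul_of_nonneg_left _ (by positivity)
        exact pow_le_pow_left₀ hδpos.le hδR1 _
      have h3 : ((2 : ℝ) ^ n + 1) * E + 2 * K ^ 2 * δ * R ^ (n - 1) ≤ η / 8 * R ^ n := by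
        have e1 : ((2 : ℝ) ^ n + 1) * E + 2 * K ^ 2 * δ * R ^ (n - 1)
            = ((2 ^ n + 1) * n + 2 * K ^ 2) * δ * R ^ (n - 1) := by rw [hE]; ring
        rw [e1]
        calc ((2 ^ n + 1) * n + 2 * K ^ 2) * δ * R ^ (n - 1)
            ≤ ((2 ^ n + 1) * n + 2 * K ^ 2) * (R / (2 * q)) * R ^ (n - 1) := by gcongr
          _ = ((2 ^ n + 1) * n + 2 * K ^ 2) / (2 * (q : ℝ)) * (R ^ (n - 1) * R) := by ring
          _ ≤ η / 8 * (R ^ (n - 1) * R) := by gcongr
          _ = η / 8 * R ^ n := by rw [hRe]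
      have hηR : 0 < η * R ^ n := by positivity
      linarith
  -- assemble the packing
  have hslots := MPack.slots (n := n) sz Nw hNw
  have hall := hcore.trans (hN0.sum (hslots.sum (MPack.refl (n := n) (fun _ : Fin N => δ))))
  have hall2 := hall.trans (MPack.regroup (n := n) (a0 := a0) (δ := δ) sz Nw hM)
  have hall3 := hall2.trans ((MPack.refl (n := n) (fun _ : Unit => a0)).sum
      ((MPack.refl (n := n) sz).sum hfill))
  exact hall3.trans (MPack.final ρ i₀ (ε * R) e sz hsz_e)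

/-- Ball packings with at most `2 ^ n` non-small balls. -/
theorem pack_main {n : ℕ} (hn : 1 ≤ n) {η : ℝ} (hη : 0 < η) :
    ∃ ε : ℝ, 0 < ε ∧ ∀ (k : ℕ) (R : ℝ) (r : Fin k → ℝ), 0 < R → (∀ i, 0 < r i) →
      (∀ i j, i ≠ j → r i + r j < R) → ∑ i, r i ^ n ≤ (1 - η) * R ^ n →
      Nat.card {i : Fin k // ε * R < r i} ≤ 2 ^ n → BallsPack n k R r := by
  classical
  rcases le_or_gt 1 η with h1 | h1
  · refine ⟨1, one_pos, ?_⟩
    intro k R r hR hr hpair hvol hcard
    have hk : k = 0 := by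
      by_contra hk
      have hpos : 0 < ∑ i, r i ^ n := by
        apply Finset.sum_pos (fun i _ => pow_pos (hr i) n)
        exact ⟨⟨0, by omega⟩, Finset.mem_univ _⟩
      have : (1 - η) * R ^ n ≤ 0 := mul_nonpos_of_nonpos_of_nonneg (by linarith) (by positivity)
      linarith
    subst hk
    exact ⟨fun i => i.elim0, fun i => i.elim0, fun i => i.elim0, fun i => i.elim0⟩
  obtain ⟨ε, hε, hmain⟩ := MPack.main (n := n) hn (η := η / 2) (by linarith) (by linarith)
  refine ⟨ε / 2, by linarith, ?_⟩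
  intro k R r hR hr hpair hvol hcard
  have hRn : 0 < R ^ n := by positivity
  -- choose a slightly bigger family
  have hev1 : ∀ᶠ κ : ℝ in 𝓝[>] 0, ∀ i j : Fin k, i ≠ j → (1 + κ) * (r i + r j) < R := by
    rw [Filter.eventually_all]
    intro i
    rw [Filter.eventually_all]
    intro j
    by_cases hij : i = j
    · simp [hij]
    · have hc : Filter.Tendsto (fun κ : ℝ => (1 + κ) * (r i + r j)) (𝓝[>] 0) (𝓝 ((1 + 0) * (r i + r j))) := by
        apply Filter.Tendsto.mono_left _ nhdsWithin_le_nhds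
        exact ((continuous_const.add continuous_id).mul continuous_const).tendsto 0
      simp only [add_zero, one_mul] at hc
      filter_upwards [hc.eventually (gt_mem_nhds (hpair i j hij))] with κ hκ _
      exact hκ
  have hev2 : ∀ᶠ κ : ℝ in 𝓝[>] 0, (1 + κ) ^ n * ((1 - η) * R ^ n) < (1 - η / 2) * R ^ n := by
    have hc : Filter.Tendsto (fun κ : ℝ => (1 + κ) ^ n * ((1 - η) * R ^ n)) (𝓝[>] 0)
        (𝓝 ((1 + 0) ^ n * ((1 - η) * R ^ n))) := by
      apply Filter.Tendsto.mono_left _ nhdsWithin_le_nhds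
      exact (((continuous_const.add continuous_id).pow n).mul continuous_const).tendsto 0
    simp only [add_zero, one_pow, one_mul] at hc
    exact hc.eventually (gt_mem_nhds (by nlinarith))
  have hev3 : ∀ᶠ κ : ℝ in 𝓝[>] 0, κ < 1 :=
    (Filter.Tendsto.mono_left Filter.tendsto_id nhdsWithin_le_nhds).eventually (gt_mem_nhds one_pos)
  have hev4 : ∀ᶠ κ : ℝ in 𝓝[>] 0, 0 < κ := self_mem_nhdsWithin
  obtain ⟨κ, ⟨⟨hκ1, hκ2⟩, hκ3⟩, hκ4⟩ := (((hev1.and hev2).and hev3).and hev4).exists
  have hpack := hmain R hR (Fin k) (fun i => (1 + κ) * r i)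
    (fun i => by have := hr i; positivity)
    (fun i j hij => by have := hκ1 i j hij; linarith)
    (by
      have h2 : ∑ i, ((1 + κ) * r i) ^ n = (1 + κ) ^ n * ∑ i, r i ^ n := by
        rw [Finset.mul_sum]
        apply Finset.sum_congr rfl
        intro i _
        rw [mul_pow]
      rw [h2]
      have h3 : (1 + κ) ^ n * ∑ i, r i ^ n ≤ (1 + κ) ^ n * ((1 - η) * R ^ n) := by gcongr
      linarith)
    (by
      refine le_trans ?_ hcard
      rw [Nat.card_eq_fintype_card, Nat.card_eq_fintype_card]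
      apply Fintype.card_le_of_injective
        (fun i : {i : Fin k // ε * R < (1 + κ) * r i} => (⟨i.1, by
          have h1 := i.2
          have h2 := hr i.1
          nlinarith⟩ : {i : Fin k // ε / 2 * R < r i}))
      intro x y hxy
      simp only [Subtype.mk.injEq] at hxy
      exact Subtype.ext hxy)
  exact hpack.toBalls hr (fun i => by have := hr i; nlinarith)

end Vale.Agent.Lib.P209
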